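import Mathlib
import Vale.Agent.P100.ConeDefs

/-!
# Parameters in a real dimension
-/

namespace Vale.Agent.P100.RealDim

/-- A choice of parameters in dimension `N` with weight `(u v) ^ L`, valid for all `P, Q > 0`. -/
def HasParamsR (N p q : ℝ) : Prop :=
  ∃ L t x₁ y₁ x₂ y₂ π₁ ρ χ ψ ε : ℝ, 0 < L ∧ L < 2 ∧ N - 4 ≤ L * (N - 2) ∧
    0 < ε ∧ ε < 1 ∧ ε < t ∧
    ∀ A B C P Q : ℝ, 0 ≤ A → 0 ≤ B → C ^ 2 ≤ A * B → 0 < P → 0 < Q →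
      0 ≤ redFormN N p q L L t x₁ y₁ x₂ y₂ π₁ ρ χ ψ ε A B C P Q

end Vale.Agent.P100.RealDim
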