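import Mathlib
import Vale.Agent.P100.Decoupled
import Vale.Agent.P100.DecoupledW
import Vale.Agent.P100.RealDim.Form

/-!
# Parameters from decoupled conditions in a real dimension
-/

open Filter Topology Set

namespace Vale.Agent.P100.RealDim

variable {N : ℝ}

/-- coefficient of `|a|⁴` (`X = L - 2 + 2 x₁`) -/
noncomputable def cAA (N : ℝ) (L x₁ : ℝ) : ℝ :=
  1 / N - (L - 2 + 2 * x₁) / N - (L - 2 + 2 * x₁) ^ 2 * (1 - 1 / N) / 4 + x₁ * (L - 1)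

/-- coefficient of `|b|⁴` -/
noncomputable def cBB (N : ℝ) (L t x₂ : ℝ) : ℝ :=
  t / N - (t * (L - 2) + 2 * x₂) / N - (t * (L - 2) + 2 * x₂) ^ 2 * (1 - 1 / N) / (4 * t) +
    x₂ * (L - 1)

/-- coefficient of `|a|² (a·b)` -/
noncomputable def cAC (N : ℝ) (L x₁ y₁ : ℝ) : ℝ :=
  -(L + 2 * y₁) / N - (L - 2 + 2 * x₁) * (L + 2 * y₁) * (1 - 1 / N) / 2 + L * (x₁ + y₁)

/-- coefficient of `|b|² (a·b)` -/
noncomputable def cBC (N : ℝ) (L t x₂ y₂ : ℝ) : ℝ :=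
  -(t * L + 2 * y₂) / N - (t * (L - 2) + 2 * x₂) * (t * L + 2 * y₂) * (1 - 1 / N) / (2 * t) +
    L * (x₂ + y₂)

/-- coefficient of `|a|²|b|²` -/
noncomputable def cAB (L t y₁ y₂ : ℝ) : ℝ :=
  -(L + 2 * y₁) ^ 2 / 8 - (t * L + 2 * y₂) ^ 2 / (8 * t) + (y₁ + y₂) * (L - 1)

/-- coefficient of `(a·b)²` -/
noncomputable def cCC (N : ℝ) (L t y₁ y₂ : ℝ) : ℝ :=
  -((L + 2 * y₁) ^ 2 / 4 + (t * L + 2 * y₂) ^ 2 / (4 * t)) * (1 / 2 - 1 / N)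

/-- coefficient of `P |a|²` -/
noncomputable def cPA (N : ℝ) (L x₁ π₁ : ℝ) : ℝ :=
  2 / N - (L - 2 + 2 * x₁) / N + 1 - x₁ + π₁ * (L - 2)

/-- coefficient of `P (a·b)` -/
noncomputable def cPC (N : ℝ) (p L y₁ π₁ ρ : ℝ) : ℝ :=
  -(L + 2 * y₁) / N - p + π₁ * (p + L) + ρ * (L - 1)

/-- coefficient of `P |b|²` -/
noncomputable def cPB (p L y₂ ρ : ℝ) : ℝ := -y₂ + ρ * (p - 1 + L)

/-- coefficient of `Q |b|²` -/
noncomputable def cQB (N : ℝ) (L t x₂ ψ : ℝ) : ℝ :=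
  2 * t / N - (t * (L - 2) + 2 * x₂) / N + t - x₂ + ψ * (L - 2)

/-- coefficient of `Q (a·b)` -/
noncomputable def cQC (N : ℝ) (q L t y₂ ψ χ : ℝ) : ℝ :=
  -(t * L + 2 * y₂) / N - t * q + ψ * (q + L) + χ * (L - 1)

/-- coefficient of `Q |a|²` -/
noncomputable def cQA (q L y₁ χ : ℝ) : ℝ := -y₁ + χ * (q - 1 + L)

theorem redFormN_split (N : ℝ) (p q L t x₁ y₁ x₂ y₂ π₁ ρ χ ψ A B C P Q : ℝ) (hn : N ≠ 0)
    (ht : t ≠ 0) :
    redFormN N p q L L t x₁ y₁ x₂ y₂ π₁ ρ χ ψ 0 A B C P Q =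
      (cAA N L x₁ * A ^ 2 + cBB N L t x₂ * B ^ 2 + cAC N L x₁ y₁ * (A * C) +
        cBC N L t x₂ y₂ * (B * C) + cAB L t y₁ y₂ * (A * B) + cCC N L t y₁ y₂ * C ^ 2) +
      P * (cPA N L x₁ π₁ * A + cPC N p L y₁ π₁ ρ * C + cPB p L y₂ ρ * B) +
      Q * (cQB N L t x₂ ψ * B + cQC N q L t y₂ ψ χ * C + cQA q L y₁ χ * A) +
      ((1 / N - π₁) * P ^ 2 - (ρ + χ) * (P * Q) + (t / N - ψ) * Q ^ 2) := by
  simp only [redFormN, hessN, cAA, cBB, cAC, cBC, cAB, cCC, cPA, cPC, cPB, cQB, cQC, cQA, sub_zero]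
  field_simp
  ring

theorem redFormN_smul (N p q lam mu t x₁ y₁ x₂ y₂ π₁ ρ χ ψ ε s A B C P Q : ℝ) :
    redFormN N p q lam mu t x₁ y₁ x₂ y₂ π₁ ρ χ ψ ε (s * A) (s * B) (s * C) (s * P) (s * Q) =
      s ^ 2 * redFormN N p q lam mu t x₁ y₁ x₂ y₂ π₁ ρ χ ψ ε A B C P Q := by
  simp only [redFormN, hessN]; ring

/-- Strict positivity at `ε = 0` gives a small positive `ε`. -/
theorem exists_eps_of_redFormN_pos {p q lam mu t x₁ y₁ x₂ y₂ π₁ ρ χ ψ : ℝ} (ht : 0 < t)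
    (hpos : ∀ x ∈ scalSimplexW, 0 < redFormN N p q lam mu t x₁ y₁ x₂ y₂ π₁ ρ χ ψ 0
      x.1 x.2.1 x.2.2.1 x.2.2.2.1 x.2.2.2.2) :
    ∃ ε : ℝ, 0 < ε ∧ ε < 1 ∧ ε < t ∧ ∀ A B C P Q : ℝ, 0 ≤ A → 0 ≤ B → C ^ 2 ≤ A * B → 0 < P →
      0 < Q → 0 ≤ redFormN N p q lam mu t x₁ y₁ x₂ y₂ π₁ ρ χ ψ ε A B C P Q := by
  set F : ℝ × (ℝ × ℝ × ℝ × ℝ × ℝ) → ℝ := fun z => redFormN N p q lam mu t x₁ y₁ x₂ y₂ π₁ ρ χ ψ
    z.1 z.2.1 z.2.2.1 z.2.2.2.1 z.2.2.2.2.1 z.2.2.2.2.2 with hF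
  have hev : ∀ᶠ ε in 𝓝 (0 : ℝ), ∀ x ∈ scalSimplexW, 0 < F (ε, x) := by
    refine isCompact_scalSimplexW.eventually_forall_of_forall_eventually fun x hx => ?_
    refine ContinuousAt.eventually_lt continuousAt_const ?_ (hpos x hx)
    simp only [hF, redFormN, hessN]
    fun_prop (disch := (simp; try linarith))
  obtain ⟨δ, hδ, hball⟩ := Metric.eventually_nhds_iff.1 hev
  set ε := min (δ / 2) (min (1 / 2) (t / 2)) with hε
  have hε0 : 0 < ε := lt_min (by linarith) (lt_min (by norm_num) (by linarith))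
  have hεδ : ε ≤ δ / 2 := min_le_left _ _
  have hε2 : ε ≤ 1 / 2 ∧ ε ≤ t / 2 :=
    ⟨(min_le_right _ _).trans (min_le_left _ _), (min_le_right _ _).trans (min_le_right _ _)⟩
  refine ⟨ε, hε0, by linarith, by linarith, fun A B C P Q hA hB hC hP hQ => ?_⟩
  set S := A + B + P + Q with hS
  have hS0 : 0 < S := by linarith
  have hmem : (A / S, B / S, C / S, P / S, Q / S) ∈ scalSimplexW := by
    refine ⟨by positivity, by positivity, ?_, by positivity, by positivity, ?_⟩ <;> simp only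
    · rw [div_pow, div_mul_div_comm, ← sq S]; gcongr
    · field_simp; rw [hS]
  have h := hball (y := ε) (by rw [Real.dist_eq, sub_zero, abs_of_pos hε0]; linarith) _ hmem
  have e := redFormN_smul N p q lam mu t x₁ y₁ x₂ y₂ π₁ ρ χ ψ ε S (A / S) (B / S) (C / S) (P / S)
    (Q / S)
  simp only [mul_div_cancel₀ _ hS0.ne'] at e
  rw [e]
  exact mul_nonneg (sq_nonneg S) h.le

/-- **Decoupled conditions.** (0) the boundary quartic is positive; (I), (II) the linear forms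
multiplying `P` and `Q` are nonnegative; (III) the `(P, Q)` form is positive. -/
theorem hasParamsR_of_conditions (hN : 3 ≤ N) {p q L t x₁ y₁ x₂ y₂ π₁ ρ χ ψ : ℝ}
    (hL0 : 0 < L) (hL2 : L < 2) (hLN : N - 4 ≤ L * (N - 2)) (ht : 0 < t)
    (h0A : 0 < cAA N L x₁)
    (h0 : ∀ r : ℝ, 0 < cAA N L x₁ * r ^ 4 + cAC N L x₁ y₁ * r ^ 3 +
      (cAB L t y₁ y₂ + cCC N L t y₁ y₂) * r ^ 2 + cBC N L t x₂ y₂ * r + cBB N L t x₂)
    (hIa : 0 ≤ cPA N L x₁ π₁) (hIb : 0 ≤ cPB p L y₂ ρ)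
    (hIg : cPC N p L y₁ π₁ ρ ^ 2 ≤ 4 * cPA N L x₁ π₁ * cPB p L y₂ ρ)
    (hIIa : 0 ≤ cQA q L y₁ χ) (hIIb : 0 ≤ cQB N L t x₂ ψ)
    (hIIg : cQC N q L t y₂ ψ χ ^ 2 ≤ 4 * cQB N L t x₂ ψ * cQA q L y₁ χ)
    (hP : π₁ < 1 / N) (hQ : ψ < t / N) (hPQ : ρ + χ ≤ 0) :
    HasParamsR N p q := by
  have hk : cCC N L t y₁ y₂ ≤ 0 := by
    have : (1 : ℝ) / N ≤ 1 / 3 := by gcongr
    refine mul_nonpos_of_nonpos_of_nonneg ?_ (by linarith)
    have : 0 ≤ (L + 2 * y₁) ^ 2 / 4 + (t * L + 2 * y₂) ^ 2 / (4 * t) := by positivity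
    linarith
  obtain ⟨ε, hε, hε1, hεt, hf⟩ := exists_eps_of_redFormN_pos (N := N) (p := p) (q := q)
    (lam := L) (mu := L) (x₁ := x₁) (y₁ := y₁) (x₂ := x₂) (y₂ := y₂)
    (π₁ := π₁) (ρ := ρ) (χ := χ) (ψ := ψ) ht (by
      rintro ⟨A, B, C, P, Q⟩ ⟨hA, hB, hC, hP0, hQ0, h1⟩
      simp only at hA hB hC hP0 hQ0 h1 ⊢
      rw [redFormN_split N p q L t x₁ y₁ x₂ y₂ π₁ ρ χ ψ A B C P Q (by linarith) ht.ne']
      have t1 := mul_nonneg hP0 (cross_nonneg hIa hIb hIg hA hB hC)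
      have t2 := mul_nonneg hQ0 (cross_nonneg hIIb hIIa hIIg hB hA (by rwa [mul_comm]))
      have u1 := mul_nonneg (sub_nonneg.2 hP.le) (sq_nonneg P)
      have u2 := mul_nonneg (sub_nonneg.2 hQ.le) (sq_nonneg Q)
      have u3 := mul_nonneg (neg_nonneg.2 hPQ) (mul_nonneg hP0 hQ0)
      rcases eq_or_lt_of_le (add_nonneg hA hB) with h0' | h0'
      · have hA0 : A = 0 := by linarith
        have hB0 : B = 0 := by linarith
        subst hA0 hB0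
        rw [mul_zero] at hC
        have hC0 : C = 0 := pow_eq_zero_iff two_ne_zero |>.1 (le_antisymm hC (sq_nonneg C))
        subst hC0
        simp only [mul_zero, zero_pow two_ne_zero, add_zero, zero_add] at *
        rcases eq_or_lt_of_le hP0 with h | h
        · have hQ1 : Q = 1 := by linarith
          subst h hQ1
          linarith
        · have := mul_pos (sub_pos.2 hP) (pow_pos h 2)
          linarith
      · have := quartic_pos hk h0A h0 hA hB hC h0'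
        linarith)
  exact ⟨L, t, x₁, y₁, x₂, y₂, π₁, ρ, χ, ψ, ε, hL0, hL2, hLN, hε, hε1, hεt, hf⟩

end Vale.Agent.P100.RealDim
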