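import Mathlib

/-!
# The binary form multiplying `P` in the lane family
-/

namespace Vale.Agent.P100.RealDim

/-- `(4 a b - g ^ 2)`, scaled, for the form multiplying `P` with `β` replaced by its worst value. -/
noncomputable def brGap (N α : ℝ) : ℝ :=
  N * (N + 1) * (N + 6) * α *
      ((((N + 2) * (N + 1) * N + 2 * (N - 7 / 5) * (N - 1))) * α + 4 * (N - 7 / 5) * N) -
    (((N + 2) * N ^ 2 + (N - 7 / 5) + 2 * N) * α + (2 * (N + 2) - 2) * N ^ 2) ^ 2

theorem brGap_pos_upper {N α : ℝ} (hN : 3 ≤ N) (hα : N - 1 ≤ α) : 0 < brGap N α := by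
  obtain ⟨m, hm, rfl⟩ : ∃ m, 0 ≤ m ∧ N = m + 3 := ⟨N - 3, by linarith, by ring⟩
  obtain ⟨s, hs, rfl⟩ : ∃ s, 0 ≤ s ∧ α = m + 2 + s := ⟨α - (m + 2), by linarith, by ring⟩
  have key : 25 * brGap (m + 3) (m + 2 + s) =
      35804 + 302924 * s + 110111 * s ^ 2 + 228644 * m + 622642 * m * s + 160380 * m * s ^ 2 +
      347811 * m ^ 2 + 514760 * m ^ 2 * s + 92955 * m ^ 2 * s ^ 2 + 243780 * m ^ 3 +
      220330 * m ^ 3 * s + 26560 * m ^ 3 * s ^ 2 + 92715 * m ^ 4 + 51500 * m ^ 4 * s +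
      3705 * m ^ 4 * s ^ 2 + 19740 * m ^ 5 + 6210 * m ^ 5 * s + 200 * m ^ 5 * s ^ 2 +
      2205 * m ^ 6 + 300 * m ^ 6 * s + 100 * m ^ 7 := by
    simp only [brGap]; ring
  refine pos_of_mul_pos_right (a := 25) ?_ (by norm_num)
  rw [key]
  positivity

theorem brGap_pos_large {N α q : ℝ} (hq : 15 ≤ q) (hN : N = q ^ 2 - 12)
    (hα : N * (2 * q + 1) ≤ 4 * q * α) : 0 < brGap N α := by
  obtain ⟨m, hm, rfl⟩ : ∃ m, 0 ≤ m ∧ q = m + 15 := ⟨q - 15, by linarith, by ring⟩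
  subst hN
  obtain ⟨s, hs, hs'⟩ : ∃ s, 0 ≤ s ∧
      α = (((m + 15) ^ 2 - 12) * (2 * (m + 15) + 1) + s) / (4 * (m + 15)) :=
    ⟨4 * (m + 15) * α - ((m + 15) ^ 2 - 12) * (2 * (m + 15) + 1), by linarith, by
      field_simp; ring⟩
  subst hs'
  have key : 25 * (4 * (m + 15)) ^ 2 * brGap ((m + 15) ^ 2 - 12)
      ((((m + 15) ^ 2 - 12) * (2 * (m + 15) + 1) + s) / (4 * (m + 15))) =
      118007899531574700699 + 611587077623486466 * s + 89137646315411 * s ^ 2 +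
      124176902545924565256 * m + 553111462061558952 * m * s + 62568333284400 * m * s ^ 2 +
      60766102602981936042 * m ^ 2 + 229954942701977482 * m ^ 2 * s +
      19652862988980 * m ^ 2 * s ^ 2 + 18343419497215678944 * m ^ 3 +
      58190093077666004 * m ^ 3 * s + 3637296645300 * m ^ 3 * s ^ 2 +
      3820015540348315550 * m ^ 4 + 9999352500450090 * m ^ 4 * s + 439234870755 * m ^ 4 * s ^ 2 +
      581316853368157364 * m ^ 5 + 1232170871940800 * m ^ 5 * s + 36160628400 * m ^ 5 * s ^ 2 +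
      66779851532365814 * m ^ 6 + 112015914549570 * m ^ 6 * s + 2055345760 * m ^ 6 * s ^ 2 +
      5897011569753080 * m ^ 7 + 7606713142860 * m ^ 7 * s + 79644600 * m ^ 7 * s ^ 2 +
      403584398029420 * m ^ 8 + 385860707750 * m ^ 8 * s + 2013705 * m ^ 8 * s ^ 2 +
      21407064239580 * m ^ 9 + 14440982440 * m ^ 9 * s + 30000 * m ^ 9 * s ^ 2 +
      872865434310 * m ^ 10 + 387593910 * m ^ 10 * s + 200 * m ^ 10 * s ^ 2 +
      26868565900 * m ^ 11 + 7065220 * m ^ 11 * s + 604415345 * m ^ 12 + 78400 * m ^ 12 * s +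
      9380620 * m ^ 13 + 400 * m ^ 13 * s + 89820 * m ^ 14 + 400 * m ^ 15 := by
    simp only [brGap]; field_simp; ring
  refine pos_of_mul_pos_right (a := 25 * (4 * (m + 15)) ^ 2) ?_ (by positivity)
  rw [key]
  positivity

end Vale.Agent.P100.RealDim
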