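import Mathlib
import Vale.Agent.P100.LaneRange
import Vale.Agent.P100.RealDim.Decoupled
import Vale.Agent.P100.RealDim.LaneBr
import Vale.Agent.P100.RealDim.Form

/-!
# The lane parameters in a real dimension, without the comparison `P ≤ kQ`
-/

open Filter Topology Set

namespace Vale.Agent.P100.RealDim

variable {n : ℝ}

/-- The form with scale `t = k^2` and the perturbation `δ` of one coefficient. -/
noncomputable def laneForm (n : ℝ) (p q k c c₂ δ : ℝ) (x : ℝ × ℝ × ℝ × ℝ × ℝ) : ℝ :=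
  redFormN n p q (1 - 1 / (n - 2)) (1 - 1 / (n - 2)) (k ^ 2)
    ((1 - 1 / (n - 2)) / 2) (-(1 + 1 / (n - 2)) / 2 + δ)
    (k ^ 2 * (1 - 1 / (n - 2)) / 2) (-(k ^ 2 * (1 + 1 / (n - 2))) / 2)
    0 (c₂ * k / n) (c * k / n) 0 0
    x.1 x.2.1 x.2.2.1 x.2.2.2.1 x.2.2.2.2

theorem laneForm_zero (hn : 3 ≤ n) (p q k c c₂ A B C P Q : ℝ) :
    laneForm n p q k c c₂ 0 (A, B, C, P, Q) =
      (1 + 1 / (n - 2)) / (2 * n) * ((A + k ^ 2 * B) * (A + B - 2 * C)) +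
      (1 + k ^ 2) * (1 / (n - 2) / (2 * n)) * (A * B - C ^ 2) +
      P * ((1 + 1 / (n - 2)) * (1 / 2 + 2 / n) * A +
        (-p + 2 * (1 / (n - 2)) / n - 1 / (n - 2) * (c₂ * k / n)) * C +
        (k ^ 2 * ((1 + 1 / (n - 2)) / 2) + c₂ * k / n * (p - 1 / (n - 2))) * B) +
      Q * (((1 + 1 / (n - 2)) / 2 + c * k / n * (q - 1 / (n - 2))) * A +
        (k ^ 2 * (-q + 2 * (1 / (n - 2)) / n) - 1 / (n - 2) * (c * k / n)) * C +
        k ^ 2 * ((1 + 1 / (n - 2)) * (1 / 2 + 2 / n)) * B) +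
      ((P - k * Q) ^ 2 / n + (2 - c - c₂) * (k / n) * (P * Q)) := by
  have h3 : (3 : ℝ) ≤ n := hn
  have hn0 : n ≠ 0 := by linarith
  have hn2 : n - 2 ≠ 0 := by linarith
  rcases eq_or_ne k 0 with hk | hk
  · subst hk
    simp only [laneForm, redFormN, hessN]
    field_simp
    ring
  simp only [laneForm, redFormN, hessN]
  field_simp
  ring

/-- The lane form is nonnegative without the comparison `P ≤ kQ` when the form multiplying `P` is
positive definite. -/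
theorem lane_sign_free {m k r₁ r₂ τ ω γ a₁ g₁ b₁ a₂ g₂ b₂ A B C P Q : ℝ}
    (hm : 0 < m) (hk : 0 < k) (hω : 0 ≤ ω) (hγ : 0 < γ) (hτ : 0 < τ)
    (hr : r₁ ^ 2 + r₂ ^ 2 ≤ 4 * m * τ) (hg : g₂ ≤ 0)
    (ha₁ : 0 < a₁) (hb₁ : 0 < b₁) (hP₁ : g₁ ^ 2 < 4 * a₁ * b₁)
    (haL : 0 < k * a₁ + b₂) (hbL : 0 < k * b₁ + a₂)
    (hL : (k * g₁ + g₂) ^ 2 < 4 * (k * a₁ + b₂) * (k * b₁ + a₂))
    (haQ : 0 < b₂ + k / m * r₁) (hbQ : 0 < a₂ - k / m * (r₂ * k))
    (hQf : (g₂ + k / m * (r₂ * k - r₁)) ^ 2 < 4 * (b₂ + k / m * r₁) * (a₂ - k / m * (r₂ * k)))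
    (hA : 0 ≤ A) (hB : 0 ≤ B) (hC : C ^ 2 ≤ A * B) (hP : 0 ≤ P) (hQ : 0 ≤ Q)
    (h1 : A + B + P + Q = 1) {E : ℝ}
    (hE : E = τ * ((A + k ^ 2 * B) * (A + B - 2 * C)) + ω * (A * B - C ^ 2) +
      P * (a₁ * A + g₁ * C + b₁ * B) + Q * (b₂ * A + g₂ * C + a₂ * B) +
      ((P - k * Q) ^ 2 / m + γ * (P * Q))) :
    0 ≤ E ∧ (E = 0 → A = 1 / 2 ∧ B = 1 / 2 ∧ C = 1 / 2 ∧ P = 0 ∧ Q = 0) := by
  rcases le_or_gt P (k * Q) with h | h
  · exact lane_sign hm hk hω hγ hτ hr hg haL hbL hL haQ hbQ hQf hA hB hC hP hQ h h1 hE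
  have hC2 : 2 * C ≤ A + B := by
    refine le_of_abs_le ?_
    refine abs_le_of_sq_le_sq ?_ (by linarith)
    linarith [sq_nonneg (A - B)]
  have t1 : 0 ≤ τ * ((A + k ^ 2 * B) * (A + B - 2 * C)) :=
    mul_nonneg hτ.le (mul_nonneg (by positivity) (by linarith))
  have t2 : 0 ≤ ω * (A * B - C ^ 2) := mul_nonneg hω (by linarith)
  have t3 := mul_nonneg (sub_nonneg.2 h.le) (cross_nonneg_strict ha₁ hb₁ hP₁ hA hB hC)
  have t4 := mul_nonneg hQ (cross_nonneg_strict haL hbL hL hA hB hC)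
  have t5 : 0 < (P - k * Q) ^ 2 / m := div_pos (pow_pos (sub_pos.2 h) 2) hm
  have t6 : 0 ≤ γ * (P * Q) := mul_nonneg hγ.le (mul_nonneg hP hQ)
  have hpos : 0 < E := by rw [hE]; linarith
  exact ⟨hpos.le, fun h0 => absurd h0 hpos.ne'⟩

/-- **Parameters from two binary forms.** -/
theorem hasParamsR_lane (hn : 4 ≤ n) {p q k c c₂ r₁ r₂ e : ℝ}
    (he : e = 1 / (n - 2)) (hk : 0 < k) (hkdef : k = (p + 1) / (q + 1)) (hc : c + c₂ < 2)
    (hr : r₁ ^ 2 + r₂ ^ 2 ≤ 2 * (1 + e))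
    (haP : 0 < (1 + e) * (1 / 2 + 2 / n))
    (hbP : 0 < k ^ 2 * ((1 + e) / 2) + c₂ * k / n * (p - e))
    (hP : (-p + 2 * e / n - e * (c₂ * k / n)) ^ 2 <
      4 * ((1 + e) * (1 / 2 + 2 / n)) * (k ^ 2 * ((1 + e) / 2) + c₂ * k / n * (p - e)))
    (hg : k ^ 2 * (-q + 2 * e / n) - e * (c * k / n) ≤ 0)
    (haL : 0 < k * ((1 + e) * (1 / 2 + 2 / n)) + ((1 + e) / 2 + c * k / n * (q - e)))
    (hbL : 0 < k * (k ^ 2 * ((1 + e) / 2) + c₂ * k / n * (p - e)) +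
      k ^ 2 * ((1 + e) * (1 / 2 + 2 / n)))
    (hL : (k * (-p + 2 * e / n - e * (c₂ * k / n)) +
        (k ^ 2 * (-q + 2 * e / n) - e * (c * k / n))) ^ 2 <
      4 * (k * ((1 + e) * (1 / 2 + 2 / n)) + ((1 + e) / 2 + c * k / n * (q - e))) *
        (k * (k ^ 2 * ((1 + e) / 2) + c₂ * k / n * (p - e)) +
          k ^ 2 * ((1 + e) * (1 / 2 + 2 / n))))
    (haQ : 0 < (1 + e) / 2 + c * k / n * (q - e) + k / n * r₁)
    (hbQ : 0 < k ^ 2 * ((1 + e) * (1 / 2 + 2 / n)) - k / n * (r₂ * k))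
    (hQf : (k ^ 2 * (-q + 2 * e / n) - e * (c * k / n) + k / n * (r₂ * k - r₁)) ^ 2 <
      4 * ((1 + e) / 2 + c * k / n * (q - e) + k / n * r₁) *
        (k ^ 2 * ((1 + e) * (1 / 2 + 2 / n)) - k / n * (r₂ * k))) :
    HasParamsR n p q := by
  have h4 : (4 : ℝ) ≤ n := hn
  have h3 : (3 : ℝ) ≤ n := by linarith
  have he0 : 0 < e := by rw [he]; exact div_pos one_pos (by linarith)
  have he1 : e ≤ 1 / 2 := by rw [he]; gcongr; linarith
  set G := fun δ x => laneForm n p q k c c₂ δ x with hG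
  set R₁ := fun x => (G 1 x - G (-1) x) / 2 with hR₁
  set R₂ := fun x => (G 1 x + G (-1) x) / 2 - G 0 x with hR₂
  have hquad : ∀ δ x, G δ x = G 0 x + δ * (R₁ x + δ * R₂ x) := fun δ x => by
    simp only [hR₁, hR₂, hG, laneForm, redFormN, hessN]; ring
  have hcont : ∀ δ, Continuous (G δ) := fun δ => by
    simp only [hG, laneForm, redFormN, hessN]; fun_prop
  have hzero : ∀ x ∈ scalSimplexW, 0 ≤ G 0 x ∧
      (G 0 x = 0 → x = (1 / 2, 1 / 2, 1 / 2, 0, 0)) := by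
    rintro ⟨A, B, C, P, Q⟩ ⟨hA, hB, hC, hP0, hQ, h1⟩
    have hn0 : (0 : ℝ) < n := by linarith
    have hτ : r₁ ^ 2 + r₂ ^ 2 ≤ 4 * n * ((1 + e) / (2 * n)) :=
      hr.trans (le_of_eq (by field_simp; ring))
    obtain ⟨k1, k2⟩ := lane_sign_free (ω := (1 + k ^ 2) * (e / (2 * n))) (γ := (2 - c - c₂) * (k / n))
      hn0 hk (by positivity) (mul_pos (by linarith) (by positivity)) (by positivity) hτ hg
      haP hbP hP haL hbL hL haQ hbQ hQf hA hB hC hP0 hQ h1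
      (E := laneForm n p q k c c₂ 0 (A, B, C, P, Q))
      (by rw [laneForm_zero (by linarith), ← he])
    refine ⟨k1, fun hz => ?_⟩
    obtain ⟨rfl, rfl, rfl, rfl, rfl⟩ := k2 hz
    rfl
  have hR₁pos : 0 < R₁ (1 / 2, 1 / 2, 1 / 2, 0, 0) := by
    have hev : R₁ (1 / 2, 1 / 2, 1 / 2, 0, 0) = 1 / 4 * (1 + e - 1 / n - 2 * e / n) := by
      have hn0 : n ≠ 0 := by linarith
      have hn2 : n - 2 ≠ 0 := by linarith
      simp only [hR₁, hG, laneForm, redFormN, hessN, he]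
      field_simp
      ring
    rw [hev]
    have h1 : 1 / n ≤ 1 / 3 := by gcongr
    have h2 : 2 * e / n ≤ 2 * e / 3 := by gcongr
    linarith
  have hev : ∀ᶠ δ in 𝓝 (0 : ℝ), ∀ x ∈ scalSimplexW, x ∈ scalSimplexW → 0 < δ → 0 < G δ x := by
    refine isCompact_scalSimplexW.eventually_forall_of_forall_eventually fun x hx => ?_
    have hR₁c : Continuous R₁ := ((hcont 1).sub (hcont (-1))).div_const 2
    have hR₂c : Continuous R₂ := (((hcont 1).add (hcont (-1))).div_const 2).sub (hcont 0)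
    obtain ⟨h0, hz⟩ := hzero x hx
    rcases eq_or_lt_of_le h0 with h | h
    · have hpos : 0 < R₁ x + 0 * R₂ x := by rw [hz h.symm]; simpa using hR₁pos
      have hc' : Continuous fun z : ℝ × (ℝ × ℝ × ℝ × ℝ × ℝ) => R₁ z.2 + z.1 * R₂ z.2 := by fun_prop
      have hG0 : ∀ᶠ z : ℝ × (ℝ × ℝ × ℝ × ℝ × ℝ) in 𝓝 (0, x), 0 < R₁ z.2 + z.1 * R₂ z.2 :=
        hc'.continuousAt.eventually_const_lt hpos
      have hmem : ∀ᶠ z : ℝ × (ℝ × ℝ × ℝ × ℝ × ℝ) in 𝓝 (0, x), z.2 ∈ scalSimplexW →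
          0 < z.1 → 0 < G z.1 z.2 := by
        filter_upwards [hG0] with z hz1 hz2 hz3
        rw [hquad]
        exact add_pos_of_nonneg_of_pos (hzero _ hz2).1 (mul_pos hz3 hz1)
      exact hmem
    · have hc' : Continuous fun z : ℝ × (ℝ × ℝ × ℝ × ℝ × ℝ) => G z.1 z.2 := by
        simp only [hG, laneForm, redFormN, hessN]; fun_prop
      filter_upwards [hc'.continuousAt.eventually_const_lt (show 0 < G (0 : ℝ) x from h)] with z hz _ _
      exact hz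
  obtain ⟨δ, hδ, hball⟩ := Metric.eventually_nhds_iff.1 hev
  have hδ2 : 0 < δ / 2 := by linarith
  have hpos : ∀ x ∈ scalSimplexW, 0 < G (δ / 2) x := fun x hx =>
    hball (by rw [Real.dist_eq, sub_zero, abs_of_pos hδ2]; linarith) x hx hx hδ2
  obtain ⟨ε, hε, hε1, hεt, hform⟩ := exists_eps_of_redFormN_pos (by positivity : 0 < k ^ 2) hpos
  rw [← he] at hform
  refine ⟨1 - e, _, _, _, _, _, _, _, _, _, ε, ?_, by linarith, ?_, hε, hε1, hεt, hform⟩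
  · linarith
  · have h2 : e * (n - 2) = 1 := by
      rw [he, div_mul_cancel₀]; linarith
    linarith

/-- The discriminant of the form multiplying `P`. -/
theorem brP_disc {n N α β c₂ : ℝ} (hN : 3 ≤ N) (hα : 0 < α) (hβ : 0 < β) (hβα : β ≤ α)
    (hlow : N ≤ α + β) (hbr : 0 < brGap N α) (hn : n = N + 2) (hc : c₂ = 1 - 7 / 5 / N) :
    (-((α + 2) / β) + 2 * (1 / N) / n - 1 / N * (c₂ * (α / β) / n)) ^ 2 <
      4 * ((1 + 1 / N) * (1 / 2 + 2 / n)) *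
        ((α / β) ^ 2 * ((1 + 1 / N) / 2) + c₂ * (α / β) / n * ((α + 2) / β - 1 / N)) := by
  have hN0 : 0 < N := by linarith
  have hn0 : 0 < n := by linarith
  set X := (n * N ^ 2 + (N - 7 / 5)) * α + 2 * n * N ^ 2 - 2 * N * β with hX
  set L := ((N + 2) * N ^ 2 + (N - 7 / 5) + 2 * N) * α + (2 * (N + 2) - 2) * N ^ 2 with hL
  set R := N * (N + 1) * (N + 6) * α *
    (((N + 2) * (N + 1) * N + 2 * (N - 7 / 5) * (N - 1)) * α + 4 * (N - 7 / 5) * N) with hR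
  set S := N * (N + 1) * (N + 6) * α *
    ((n * (N + 1) * N + 2 * (N - 7 / 5) * N) * α + 4 * (N - 7 / 5) * N -
      2 * (N - 7 / 5) * β) with hS
  have hX0 : 0 ≤ X := by
    have h1 : 2 * N * β ≤ n * N ^ 2 * α := by
      refine mul_le_mul ?_ hβα hβ.le (by positivity)
      subst hn; nlinarith
    have : 0 ≤ (N - 7 / 5) * α := mul_nonneg (by linarith) hα.le
    have : 0 ≤ 2 * n * N ^ 2 := by positivity
    linarith
  have hXL : X ≤ L := by
    simp only [hX, hL, hn]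
    linarith [mul_le_mul_of_nonneg_left hlow (by linarith : (0 : ℝ) ≤ 2 * N)]
  have hRS : R ≤ S := by
    simp only [hR, hS, hn]
    refine mul_le_mul_of_nonneg_left ?_ (by positivity)
    linarith [mul_le_mul_of_nonneg_left hβα (by linarith : (0 : ℝ) ≤ 2 * (N - 7 / 5))]
  have key : X ^ 2 < S := by
    have h1 : X ^ 2 ≤ L ^ 2 := pow_le_pow_left₀ hX0 hXL 2
    have h2 : L ^ 2 < R := by simpa [brGap, hL, hR] using hbr
    linarith
  rw [← sub_pos]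
  refine (div_pos (sub_pos.2 key) (by positivity : 0 < n ^ 2 * N ^ 4 * β ^ 2)).trans_eq ?_
  simp only [hX, hS, hc, hn]
  field_simp
  ring

/-- **Parameters on the range.** -/
theorem hasParamsR_range {n : ℝ} (hn : 5 ≤ n) {p q : ℝ} (hq : 0 < q) (hqp : q ≤ p) (hpq : 1 < p * q)
    (hser : 2 * (p + 1) ≤ (n - 2) * (p * q - 1))
    (hbr : 0 < brGap (n - 2) (2 * (p + 1) / (p * q - 1)))
    (hlow : n - 2 ≤ 2 * (p + 1) / (p * q - 1) + 2 * (q + 1) / (p * q - 1))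
    (h : (n - 2) * (1 + 1 / (2 * √(n + 10))) ≤
          2 * (p + 1) / (p * q - 1) + 2 * (q + 1) / (p * q - 1) ∨
        (2 * (p + 1) / (p * q - 1) ≤ n - 3 ∧
          16 / 15 * (n - 2) ≤ 2 * (p + 1) / (p * q - 1) + 2 * (q + 1) / (p * q - 1))) :
    HasParamsR n p q := by
  have h5 : (5 : ℝ) ≤ n := hn
  have hd : 0 < p * q - 1 := by linarith
  set α := 2 * (p + 1) / (p * q - 1) with hα
  set β := 2 * (q + 1) / (p * q - 1) with hβ
  set N := n - 2 with hN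
  have hN3 : 3 ≤ N := by linarith
  have hN0 : N ≠ 0 := by linarith
  have hβ0 : 0 < β := div_pos (by linarith) hd
  have hαβ : β ≤ α := div_le_div_of_nonneg_right (by linarith) hd.le
  have hα0 : 0 < α := hβ0.trans_le hαβ
  have hαN : α ≤ N := by rw [hα, div_le_iff₀ hd]; linarith
  have hσ : α + β ≠ 0 := by linarith
  have hαm : α * (p * q - 1) = 2 * (p + 1) := div_mul_cancel₀ _ hd.ne'
  have hβm : β * (p * q - 1) = 2 * (q + 1) := div_mul_cancel₀ _ hd.ne'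
  have hp_eq : p = (α + 2) / β := by
    rw [eq_div_iff hβ0.ne']
    exact mul_right_cancel₀ hd.ne' (by linear_combination p * hβm - hαm)
  have hq_eq : q = (β + 2) / α := by
    rw [eq_div_iff hα0.ne']
    exact mul_right_cancel₀ hd.ne' (by linear_combination q * hαm - hβm)
  have hk : (p + 1) / (q + 1) = α / β := by rw [hα, hβ]; field_simp
  obtain ⟨hL, hQ⟩ := disc_neg_of_range hN3 hβ0 hαβ hαN (by
    rcases h with h | ⟨h1, h2⟩
    · exact Or.inl (by rw [show N + 12 = n + 10 by rw [hN]; ring]; exact h)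
    · exact Or.inr ⟨by linarith, h2⟩)
  set c := 1 + 27 / 20 / N with hc
  set c₂ := 1 - 7 / 5 / N with hc₂
  set r₁ := 1 - 1 / 4 / N with hr₁
  set r₂ := 1 + 21 / 20 / N with hr₂
  have hu : 0 < 1 / N ∧ 1 / N ≤ 1 / 3 := ⟨by positivity, by gcongr⟩
  have hcd : ∀ a : ℝ, a / N = a * (1 / N) := fun a => by ring
  have hc0 : 0 ≤ c ∧ c ≤ 3 / 2 := by constructor <;> linarith [hcd (27 / 20)]
  have hc₂0 : 0 ≤ c₂ ∧ c₂ ≤ 1 := by constructor <;> linarith [hcd (7 / 5)]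
  have hr₁0 : 1 / 2 ≤ r₁ ∧ r₂ ≤ 3 / 2 := by constructor <;> linarith [hcd (1 / 4), hcd (21 / 20)]
  have hce : c * (1 / N) ≤ 1 / 2 := le_trans (mul_le_mul hc0.2 hu.2 hu.1.le (by norm_num)) (by norm_num)
  have hce₂ : c₂ * (1 / N) ≤ 1 / 2 :=
    le_trans (mul_le_mul hc₂0.2 hu.2 hu.1.le (by norm_num)) (by norm_num)
  have hn0 : (0 : ℝ) < n := by linarith
  have hbase : 1 ≤ (1 + 1 / N) * (n + 4) / 2 ∧ 0 ≤ (1 + 1 / N) * n / 2 := by
    refine ⟨?_, by positivity⟩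
    linarith [mul_nonneg hu.1.le (by linarith : (0 : ℝ) ≤ n + 4)]
  have hA1 : 0 < (1 + 1 / N) * (n + 4) / 2 * α + (1 + 1 / N) * n / 2 * β +
      c * (β + 2 - 1 / N * α) := by
    have := mul_le_mul_of_nonneg_right hbase.1 hα0.le
    have := mul_nonneg hbase.2 hβ0.le
    have := mul_nonneg hc0.1 (by linarith : (0 : ℝ) ≤ β + 2)
    linarith [mul_le_mul_of_nonneg_right hce hα0.le]
  have hB1 : 0 < (1 + 1 / N) * (n + 4) / 2 * β + (1 + 1 / N) * n / 2 * α +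
      c₂ * (α + 2 - 1 / N * β) := by
    have := mul_le_mul_of_nonneg_right hbase.1 hβ0.le
    have := mul_nonneg hbase.2 hα0.le
    have := mul_nonneg hc₂0.1 (by linarith : (0 : ℝ) ≤ α + 2)
    linarith [mul_le_mul_of_nonneg_right hce₂ hβ0.le]
  have hA2 : 0 < (1 + 1 / N) * n / 2 * β + c * (β + 2 - 1 / N * α) + r₁ * α := by
    have h1 : 0 < (1 + 1 / N) * n / 2 * β := by positivity
    have := mul_nonneg hc0.1 (by linarith : (0 : ℝ) ≤ β + 2)
    linarith [mul_le_mul_of_nonneg_right hce hα0.le, mul_le_mul_of_nonneg_right hr₁0.1 hα0.le]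
  have hB2 : 0 < (1 + 1 / N) * (n + 4) / 2 - r₂ := by
    linarith [mul_nonneg hu.1.le (by linarith : (0 : ℝ) ≤ n + 4)]
  have hnN : n = N + 2 := by linarith
  clear_value N α β
  have hB1' : 0 < (1 + 1 / N) * n / 2 * α + c₂ * (α + 2 - 1 / N * β) := by
    have h1 : 0 < (1 + 1 / N) * n / 2 * α := by positivity
    have h2 : 1 / N * β ≤ α := (mul_le_mul hu.2 hαβ hβ0.le (by norm_num)).trans (by linarith)
    have := mul_nonneg hc₂0.1 (by linarith : 0 ≤ α + 2 - 1 / N * β)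
    linarith
  refine hasParamsR_lane (n := n) (k := α / β) (c := c) (c₂ := c₂) (r₁ := r₁) (r₂ := r₂)
    (e := 1 / N) (by linarith) (by rw [hN]) (by positivity) hk.symm ?_ ?_ ?_ ?_ ?_ ?_ ?_ ?_ ?_ ?_ ?_ ?_
  · linarith [hcd (27 / 20), hcd (7 / 5)]
  · linarith [hcd (1 / 4), hcd (21 / 20), show r₁ ^ 2 + r₂ ^ 2 =
      2 + 8 / 5 * (1 / N) + 233 / 200 * (1 / N) ^ 2 by rw [hr₁, hr₂]; ring,
      mul_le_mul_of_nonneg_left hu.2 hu.1.le]
  · positivity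
  · rw [hp_eq]
    refine (mul_pos (div_pos hα0 (mul_pos hn0 (pow_pos hβ0 2))) hB1').trans_eq ?_
    field_simp
  · rw [hp_eq]
    exact brP_disc hN3 hα0 hβ0 hαβ hlow hbr hnN hc₂
  · have hq2 : 2 * (1 / N) / n ≤ q := by
      rw [hq_eq, le_div_iff₀ hα0]
      have : 2 * (1 / N) / n * α ≤ 2 * (1 / N) / n * N :=
        mul_le_mul_of_nonneg_left hαN (by positivity)
      have h2 : 2 * (1 / N) / n * N = 2 / n := by field_simp
      have h3 : 2 / n ≤ 2 / 1 := by gcongr; linarith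
      linarith
    have := mul_nonpos_of_nonneg_of_nonpos (sq_nonneg (α / β))
      (by linarith : -q + 2 * (1 / N) / n ≤ 0)
    have : 0 ≤ 1 / N * (c * (α / β) / n) :=
      mul_nonneg hu.1.le (div_nonneg (mul_nonneg hc0.1 (by positivity)) hn0.le)
    linarith
  · rw [hq_eq]
    refine (div_pos hA1 (mul_pos hn0 hβ0)).trans_eq ?_
    field_simp
    ring
  · rw [hp_eq]
    refine (mul_pos (pow_pos (div_pos hα0 hβ0) 2) (div_pos hB1 (mul_pos hn0 hβ0))).trans_eq ?_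
    field_simp
    ring
  · rw [hq_eq, hp_eq, ← sub_neg]
    refine lt_of_eq_of_lt (b := (α / β) ^ 2 * (α + β) ^ 2 / (n * β) ^ 2 *
      discL N (α / (α + β)) (1 / (α + β))) ?_ (mul_neg_of_pos_of_neg (by positivity) hL)
    simp only [discL, hnN, hc, hc₂]
    field_simp
    ring
  · rw [hq_eq]
    refine (div_pos hA2 (mul_pos hn0 hβ0)).trans_eq ?_
    field_simp
  · refine (mul_pos (pow_pos (div_pos hα0 hβ0) 2) (div_pos hB2 hn0)).trans_eq ?_
    field_simp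
    ring
  · rw [hq_eq, ← sub_neg]
    refine lt_of_eq_of_lt (b := (α / β) ^ 2 * (α + β) ^ 2 / (n * β) ^ 2 *
      discQ N (α / (α + β)) (1 / (α + β))) ?_ (mul_neg_of_pos_of_neg (by positivity) hQ)
    simp only [discQ, hnN, hc, hr₁, hr₂]
    field_simp
    ring

end Vale.Agent.P100.RealDim
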