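import Mathlib
import Vale.Agent.P100.StripRange
import Vale.Agent.P100.RealDim.FreeL
import Vale.Agent.P100.AssemblyG

/-!
# The strip parameters in a real dimension
-/

open Filter Topology Set

noncomputable section

namespace Vale.Agent.P100.RealDim

open Strip

variable {N : ℝ} {e u h : ℝ}

/-- Parameters in the coordinates `(e, u, h)`. -/
theorem hasParamsR_coords {N : ℝ} (hn : 5 ≤ N) {p q : ℝ} (hne : N = (1 + 2 * e) / e)
    (hpe : p = ((1 - u) + 2 * h) / u) (hqe : q = (u + 2 * h) / (1 - u))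
    (he : 0 < e) (he3 : 3 * e ≤ 1) (hu : e < u) (hu2 : 2 * u ≤ 1)
    (hlo : (1 - u) * e ≤ h) (hup : h ≤ e * (1 - 2 * u ^ 2 * (1 - 2 * u) ^ 2)) (hhe : h < e) :
    HasParamsR N p q := by
  have hI := sI_pos he he3 hu hu2 hlo hup hhe
  have hII := sII_pos he he3 hu hu2 hlo hup hhe
  have hu0 : 0 < u := he.trans hu
  have hx : 0 < 1 - u := by linarith
  have hm : 0 < 1 + 3 * e := by linarith
  have hs : 0 < 1 + 2 * e := by linarith
  have hln : 2 * e * (1 - u) * (N - 2) ≤ 2 := by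
    rw [hne, show 2 * e * (1 - u) * ((1 + 2 * e) / e - 2) = 2 * (1 - u) by
      field_simp; ring]
    nlinarith
  have hl1 : 2 * e * (1 - u) < 1 := by nlinarith
  have hl0 : -1 < 2 * e * (1 - u) := by
    have : 0 < 2 * e * (1 - u) := by positivity
    linarith
  have hxi : 0 < xiN e u := by
    simp only [xiN, gn]
    have : u * e * (1 + e) * 2 < 1 := by nlinarith [mul_le_mul_of_nonneg_left hu2 he.le]
    have : 1 ≤ (1 + 2 * e * (1 - u)) * (1 + 3 * e) := by nlinarith [mul_pos he hx]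
    linarith
  have hzeta : 0 < zetaN e u := by
    simp only [zetaN, gn]
    have : u * e * (1 + e) * 2 < 1 := by nlinarith [mul_le_mul_of_nonneg_left hu2 he.le]
    have : 1 ≤ (1 + 2 * e * u) * (1 + 3 * e) := by nlinarith [mul_pos he hu0]
    linarith
  set D := (e * u * (1 + 2 * e) * (1 + 3 * e)) ^ 2 with hDdef
  have hD : 0 < D := by positivity
  rcases lt_or_eq_of_le hu2 with hu2' | hu2'
  · -- off the diagonal
    obtain ⟨hA, hq4⟩ := Strip.quartic_pos he he3 hu hu2'
    refine hasParamsR_freeL (by linarith) (l := 2 * e * (1 - u)) (t := (1 - u) / u)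
      (ξ := xiN e u / (1 + 3 * e)) (η := etaN e u / (1 + 3 * e))
      (ζ := zetaN e u / (1 + 3 * e)) (ν := nuN e u / (1 + 3 * e))
      (ρ := (1 - 2 * u) * fn e u / (2 * u * (1 + 2 * e) ^ 2 * (1 + 3 * e)))
      hl0 hl1 hln (by positivity) (by positivity) (by positivity) ?_ (fun r => ?_) ?_ ?_
    · have : flG N (2 * e * (1 - u)) (xiN e u / (1 + 3 * e)) =
          qA e u / (4 * (1 + 2 * e) * (1 + 3 * e) ^ 2 * u) := by
        simp only [flG, qA, gP, lN, hne]; field_simp; ring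
      rw [this]; positivity
    · have : flQuartic N (2 * e * (1 - u)) ((1 - u) / u) (xiN e u / (1 + 3 * e))
          (etaN e u / (1 + 3 * e)) (zetaN e u / (1 + 3 * e)) (nuN e u / (1 + 3 * e)) r =
          (qA e u * r ^ 4 + qB e u * r ^ 3 + qC e u * r ^ 2 + qR e u * r + qE e u) /
            (4 * (1 + 2 * e) * (1 + 3 * e) ^ 2 * u) := by
        simp only [flQuartic, flG, flJ, flM, qA, qB, qC, qR, qE, gP, jP, lN, hne]
        field_simp; ring
      rw [this]; exact div_pos (hq4 r) (by positivity)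
    · rw [← sub_pos]
      refine lt_of_lt_of_eq (div_pos hI hD) ?_
      simp only [sI, rI, lI, hDdef, hne, hpe]
      field_simp; ring
    · rw [← sub_pos]
      refine lt_of_lt_of_eq (div_pos hII hD) ?_
      simp only [sII, rII, lII, hDdef, hne, hqe]
      field_simp; ring
  · -- the diagonal
    have hu' : u = 1 / 2 := by linarith
    subst hu'
    set K := (1 + 4 * e) * (1 + 2 * e) * (1 / 4 * nuN e (1 / 2) * (1 + 2 * e) ^ 2) with hK
    have hnu : 0 < nuN e (1 / 2) := by simp only [nuN, gn]; positivity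
    have hKp : 0 < K := by positivity
    obtain ⟨τ, hτ, hτe, hτI, hτII, hτx⟩ : ∃ τ : ℝ, 0 < τ ∧ 8 * τ ≤ e ∧
        τ * K < sI e (1 / 2) h ∧ τ * K < sII e (1 / 2) h ∧ τ < xiN e (1 / 2) := by
      refine ⟨min (e / 8) (min (sI e (1 / 2) h / (2 * K))
        (min (sII e (1 / 2) h / (2 * K)) (xiN e (1 / 2) / 2))), ?_, ?_, ?_, ?_, ?_⟩
      · exact lt_min (by positivity) (lt_min (by positivity) (lt_min (by positivity)
          (by positivity)))
      · linarith [min_le_left (e / 8) (min (sI e (1 / 2) h / (2 * K))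
          (min (sII e (1 / 2) h / (2 * K)) (xiN e (1 / 2) / 2)))]
      · have := (min_le_right (e / 8) _).trans (min_le_left (sI e (1 / 2) h / (2 * K))
          (min (sII e (1 / 2) h / (2 * K)) (xiN e (1 / 2) / 2)))
        rw [le_div_iff₀ (by positivity)] at this
        linarith
      · have := ((min_le_right (e / 8) _).trans (min_le_right (sI e (1 / 2) h / (2 * K)) _)).trans
          (min_le_left (sII e (1 / 2) h / (2 * K)) (xiN e (1 / 2) / 2))
        rw [le_div_iff₀ (by positivity)] at this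
        linarith
      · have := ((min_le_right (e / 8) _).trans (min_le_right (sI e (1 / 2) h / (2 * K)) _)).trans
          (min_le_right (sII e (1 / 2) h / (2 * K)) (xiN e (1 / 2) / 2))
        linarith
    have hq4 := diag_quartic_pos he he3 hτ hτe
    have hG : 0 < gP e (1 / 2) (xiN e (1 / 2) - τ) := by simpa using hq4 0
    have hpos : 0 < (xiN e (1 / 2) - τ) / (1 + 3 * e) := div_pos (by linarith) hm
    refine hasParamsR_freeL (by linarith) (l := e) (t := 1)
      (ξ := (xiN e (1 / 2) - τ) / (1 + 3 * e)) (η := etaN e (1 / 2) / (1 + 3 * e))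
      (ζ := (xiN e (1 / 2) - τ) / (1 + 3 * e)) (ν := etaN e (1 / 2) / (1 + 3 * e)) (ρ := 0)
      (by linarith) (by linarith) (by linarith) one_pos hpos hpos ?_ (fun r => ?_) ?_ ?_
    · have : flG N e ((xiN e (1 / 2) - τ) / (1 + 3 * e)) =
          gP e (1 / 2) (xiN e (1 / 2) - τ) / (4 * (1 + 2 * e) * (1 + 3 * e) ^ 2) := by
        simp only [flG, gP, lN, hne]; field_simp; ring
      rw [this]; positivity
    · have : flQuartic N e 1 ((xiN e (1 / 2) - τ) / (1 + 3 * e)) (etaN e (1 / 2) / (1 + 3 * e))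
          ((xiN e (1 / 2) - τ) / (1 + 3 * e)) (etaN e (1 / 2) / (1 + 3 * e)) r =
          (gP e (1 / 2) (xiN e (1 / 2) - τ) * r ^ 4 +
            jP e (1 / 2) (xiN e (1 / 2) - τ) (etaN e (1 / 2)) * r ^ 3 + 2 * qC e (1 / 2) * r ^ 2 +
            jP e (1 / 2) (xiN e (1 / 2) - τ) (etaN e (1 / 2)) * r +
            gP e (1 / 2) (xiN e (1 / 2) - τ)) / (4 * (1 + 2 * e) * (1 + 3 * e) ^ 2) := by
        simp only [flQuartic, flG, flJ, flM, qC, gP, jP, lN, hne, etaN, nuN, gn]
        field_simp; ring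
      rw [this]; exact div_pos (hq4 r) (by positivity)
    · rw [← sub_pos]
      refine lt_of_lt_of_eq (div_pos (sub_pos.2 hτI) hD) ?_
      simp only [sI, rI, lI, hK, hDdef, hne, hpe, xiN, etaN, nuN, gn]
      field_simp; ring
    · rw [← sub_pos]
      refine lt_of_lt_of_eq (div_pos (sub_pos.2 hτII) hD) ?_
      simp only [sII, rII, lII, hK, hDdef, hne, hqe, xiN, etaN, nuN, zetaN, gn]
      field_simp; ring

/-- Parameters for `q ≤ p`, `α ≤ N - 3` and `σ - (N-2) ≥ 2 β²(α-β)²/σ³`, `σ = α + β`. -/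
theorem hasParamsR_strip {N : ℝ} (hn : 5 ≤ N) {p q : ℝ} (hq : 0 < q) (hqp : q ≤ p)
    (hpq : 1 < p * q) (hα : 2 * (p + 1) / (p * q - 1) ≤ N - 3)
    (hsub : N - 2 < 2 * (p + 1) / (p * q - 1) + 2 * (q + 1) / (p * q - 1))
    (hσ : 2 * (2 * (q + 1) / (p * q - 1)) ^ 2 *
        (2 * (p + 1) / (p * q - 1) - 2 * (q + 1) / (p * q - 1)) ^ 2 /
        (2 * (p + 1) / (p * q - 1) + 2 * (q + 1) / (p * q - 1)) ^ 3 ≤
      2 * (p + 1) / (p * q - 1) + 2 * (q + 1) / (p * q - 1) - (N - 2)) :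
    HasParamsR N p q := by
  have hd : 0 < p * q - 1 := by linarith
  have hd0 := hd.ne'
  set α := 2 * (p + 1) / (p * q - 1) with hαdef
  set β := 2 * (q + 1) / (p * q - 1) with hβdef
  have hβα : β ≤ α := by rw [hαdef, hβdef]; gcongr
  have hα0 : 0 < α := by have : 0 < p := hq.trans_le hqp; positivity
  have hβ0 : 0 < β := by positivity
  have hσ0 : 0 < α + β := by linarith
  have hpα : p * β = α + 2 := by
    rw [hαdef, hβdef, mul_div_assoc', div_add' _ _ _ hd0]; congr 1; ring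
  have hqα : q * α = β + 2 := by
    rw [hαdef, hβdef, mul_div_assoc', div_add' _ _ _ hd0]; congr 1; ring
  clear_value α β
  have hn2 : 0 < N - 2 := by linarith
  refine hasParamsR_coords (e := 1 / (N - 2)) (u := β / (α + β)) (h := 1 / (α + β)) hn
    ?_ ?_ ?_ (by positivity) ?_ ?_ ?_ ?_ ?_ ?_
  · field_simp; ring
  · rw [show 1 - β / (α + β) = α / (α + β) by field_simp; ring, mul_one_div, ← add_div,
      div_div_div_cancel_right₀ hσ0.ne', ← hpα, mul_div_cancel_right₀ _ hβ0.ne']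
  · rw [show 1 - β / (α + β) = α / (α + β) by field_simp; ring, mul_one_div, ← add_div,
      div_div_div_cancel_right₀ hσ0.ne', ← hqα, mul_div_cancel_right₀ _ hα0.ne']
  · rw [mul_one_div, div_le_one hn2]; linarith
  · rw [div_lt_div_iff₀ hn2 hσ0]
    nlinarith
  · rw [mul_div_assoc', div_le_one hσ0]; linarith
  · rw [show (1 - β / (α + β)) * (1 / (N - 2)) = α / (α + β) * (1 / (N - 2)) by
      field_simp; ring, div_mul_div_comm, mul_one, div_le_div_iff₀ (by positivity) hσ0]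
    nlinarith
  · have e1 : 1 / (N - 2) * (1 - 2 * (β / (α + β)) ^ 2 * (1 - 2 * (β / (α + β))) ^ 2) =
        ((α + β) - 2 * β ^ 2 * (α - β) ^ 2 / (α + β) ^ 3) / ((N - 2) * (α + β)) := by
      field_simp; ring
    rw [e1, div_le_div_iff₀ hσ0 (by positivity)]
    nlinarith
  · rw [one_div_lt_one_div hσ0 hn2]; exact hsub

/-- The strip parameters in the form used by the assembly for equal weights. -/
theorem hasParamsN_strip {N : ℝ} (hn : 5 ≤ N) {p q : ℝ} (hq : 0 < q) (hqp : q ≤ p)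
    (hpq : 1 < p * q) (hα : 2 * (p + 1) / (p * q - 1) ≤ N - 3)
    (hsub : N - 2 < 2 * (p + 1) / (p * q - 1) + 2 * (q + 1) / (p * q - 1))
    (hσ : 2 * (2 * (q + 1) / (p * q - 1)) ^ 2 *
        (2 * (p + 1) / (p * q - 1) - 2 * (q + 1) / (p * q - 1)) ^ 2 /
        (2 * (p + 1) / (p * q - 1) + 2 * (q + 1) / (p * q - 1)) ^ 3 ≤
      2 * (p + 1) / (p * q - 1) + 2 * (q + 1) / (p * q - 1) - (N - 2)) :
    HasParamsN N p q := by
  obtain ⟨L, t, x₁, y₁, x₂, y₂, π₁, ρ, χ, ψ, ε, hL0, -, hLN, hε, hε1, hεt, hf⟩ :=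
    hasParamsR_strip hn hq hqp hpq hα hsub hσ
  refine ⟨L, t, x₁, y₁, x₂, y₂, π₁, ρ, χ, ψ, ε, hL0.le, ?_, hε, hε1, hεt, hf⟩
  have hd : 0 < p * q - 1 := by linarith
  rw [← add_div, lt_div_iff₀ hd] at hsub
  calc (N - 4) * (p * q - 1) ≤ L * (N - 2) * (p * q - 1) := by gcongr
    _ = L * ((N - 2) * (p * q - 1)) := by ring
    _ < L * (2 * (p + 1) + 2 * (q + 1)) := by gcongr
    _ = L * (2 * (p + q + 2)) := by ring

end Vale.Agent.P100.RealDim

end
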