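import Mathlib
import Vale.Agent.P100.RealDim.Lane
import Vale.Agent.P100.RealDim.StripRange

/-!
# Parameters in a real dimension outside a layer vanishing quadratically on the diagonal
-/

noncomputable section

namespace Vale.Agent.P100.RealDim

/-- A parameter choice in real dimension in the form used by the assembly for equal weights. -/
theorem hasParamsN_of_hasParamsR {N p q : ℝ} (hpq : 1 < p * q)
    (hsub : N - 2 < 2 * (p + 1) / (p * q - 1) + 2 * (q + 1) / (p * q - 1))
    (h : HasParamsR N p q) : HasParamsN N p q := by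
  obtain ⟨L, t, x₁, y₁, x₂, y₂, π₁, ρ, χ, ψ, ε, hL0, -, hLN, hε, hε1, hεt, hf⟩ := h
  refine ⟨L, t, x₁, y₁, x₂, y₂, π₁, ρ, χ, ψ, ε, hL0.le, ?_, hε, hε1, hεt, hf⟩
  have hd : 0 < p * q - 1 := by linarith
  rw [← add_div, lt_div_iff₀ hd] at hsub
  calc (N - 4) * (p * q - 1) ≤ L * (N - 2) * (p * q - 1) := by gcongr
    _ = L * ((N - 2) * (p * q - 1)) := by ring
    _ < L * (2 * (p + 1) + 2 * (q + 1)) := by gcongr
    _ = L * (2 * (p + q + 2)) := by ring

/-- `2 β² (α-β)² / σ³` is at most `σ / 32`. -/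
theorem layer_le {a b : ℝ} (hb : 0 < b) (hba : b ≤ a) :
    2 * b ^ 2 * (a - b) ^ 2 / (a + b) ^ 3 ≤ (a + b) / 32 := by
  rw [div_le_div_iff₀ (by have : 0 < a + b := by linarith
                          positivity) (by norm_num)]
  have h1 : 8 * (b * (a - b)) ≤ (a + b) ^ 2 := by linarith [sq_nonneg (a - 3 * b)]
  have h2 := pow_le_pow_left₀ (mul_nonneg (by norm_num) (mul_nonneg hb.le (sub_nonneg.2 hba))) h1 2
  calc 2 * b ^ 2 * (a - b) ^ 2 * 32 = (8 * (b * (a - b))) ^ 2 := by ring
    _ ≤ ((a + b) ^ 2) ^ 2 := h2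
    _ = (a + b) * (a + b) ^ 3 := by ring

/-- **Parameters on the whole range of the layer theorem**, for `q ≤ p`. -/
theorem hasParamsN_layer {N : ℝ} (hN : 5 ≤ N) {p q : ℝ} (hq : 0 < q) (hqp : q ≤ p)
    (hpq : 1 < p * q) (hser : 2 * (p + 1) ≤ (N - 2) * (p * q - 1))
    (h : (N - 2) * (1 + 1 / (2 * √(N + 10))) ≤
          2 * (p + 1) / (p * q - 1) + 2 * (q + 1) / (p * q - 1) ∨
      (2 * (p + 1) / (p * q - 1) ≤ N - 3 ∧
        N - 2 < 2 * (p + 1) / (p * q - 1) + 2 * (q + 1) / (p * q - 1) ∧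
        2 * (2 * (q + 1) / (p * q - 1)) ^ 2 *
            (2 * (p + 1) / (p * q - 1) - 2 * (q + 1) / (p * q - 1)) ^ 2 /
            (2 * (p + 1) / (p * q - 1) + 2 * (q + 1) / (p * q - 1)) ^ 3 ≤
          2 * (p + 1) / (p * q - 1) + 2 * (q + 1) / (p * q - 1) - (N - 2))) :
    HasParamsN N p q := by
  rcases h with h | ⟨h1, h2, h3⟩
  · have hd : 0 < p * q - 1 := by linarith
    set α := 2 * (p + 1) / (p * q - 1) with hα
    set β := 2 * (q + 1) / (p * q - 1) with hβ
    set r := √(N + 10) with hr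
    have hr0 : 0 < r := Real.sqrt_pos.2 (by linarith)
    have hr2 : N + 10 = r ^ 2 := (Real.sq_sqrt (by linarith)).symm
    have hβ0 : 0 < β := div_pos (by linarith) hd
    have hαβ : β ≤ α := div_le_div_of_nonneg_right (by linarith) hd.le
    have hδ : 0 < 1 / (2 * r) := by positivity
    have hsub : N - 2 < α + β := by
      have := mul_pos (by linarith : (0 : ℝ) < N - 2) hδ
      linarith
    by_cases hup : N - 3 ≤ α
    · exact hasParamsN_of_hasParamsR hpq hsub (hasParamsR_range hN hq hqp hpq hser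
        (brGap_pos_upper (by linarith) (by linarith)) hsub.le (Or.inl h))
    by_cases hbig : 15 ≤ r
    · refine hasParamsN_of_hasParamsR hpq hsub (hasParamsR_range hN hq hqp hpq hser
        (brGap_pos_large hbig (by linarith) ?_) hsub.le (Or.inl h))
      have h2 : (N - 2) * (1 + 1 / (2 * r)) ≤ 2 * α := by linarith
      calc (N - 2) * (2 * r + 1) = (N - 2) * (1 + 1 / (2 * r)) * (2 * r) := by field_simp
        _ ≤ 2 * α * (2 * r) := by gcongr
        _ = 4 * r * α := by ring
    · refine hasParamsN_strip hN hq hqp hpq (by linarith) hsub ((layer_le hβ0 hαβ).trans ?_)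
      have h30 : 1 / 30 ≤ 1 / (2 * r) := one_div_le_one_div_of_le (by positivity) (by linarith)
      have h2 : (N - 2) * (1 + 1 / 30) ≤ (N - 2) * (1 + 1 / (2 * r)) :=
        mul_le_mul_of_nonneg_left (by linarith) (by linarith)
      linarith
  · exact hasParamsN_strip hN hq hqp hpq h1 h2 h3

end Vale.Agent.P100.RealDim

end
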