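import Mathlib
import Vale.Agent.P100.RealDim.Range
import Vale.Agent.P100.EighthNearPosI

/-!
# Parameters near the diagonal: `9(n-2)p ≤ 20(n+2)` and `α + β ≥ n - 2 + 1/8`

The quartic of `hasParams_freeL` is `K r²(r-s)² + (t g₀/s²)(r-s)²` plus a multiple of `r²` that
vanishes at the exact `t`; the linear conditions are the generated polynomial inequalities.
-/

open Filter Topology

noncomputable section

namespace Vale.Agent.P100.RealDim.Near

open Vale.Agent.P100.Near

/-- the weight shift `l` -/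
def lS (N s : ℝ) : ℝ := 2 * s / (N * (s + 1))

/-- `ζ` -/
def zeS (N s : ℝ) : ℝ := 1 + lS N s - 4 * s / ((s + 1) * (N + s))

/-- `ν` -/
def nuS (N s : ℝ) : ℝ := eNu N s / (N * s * (s + 1) * (N + s) * eG N s)

/-- the exact `t` -/
def tS (N s : ℝ) : ℝ := (N + 2) * eT N s / eDen N s

/-- `ρ` -/
def rS (N s T : ℝ) : ℝ :=
  (s - T / s) / 2 - (3 * s + 1) / ((s + 1) * eD3 s * N) + (16 - 6 * s) / (5 * N * (N + 2))

/-- slack in (I) -/
def F1 (N p s T : ℝ) : ℝ :=
  (N + 2) * (N + 4) * (1 + lS N s) * (T * nuS N s + 2 * rS N s T * (p - lS N s)) -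
    ((N + 1) * p - (1 + lS N s) + (N + 2) * rS N s T * lS N s) ^ 2

/-- slack in (II) -/
def F2 (N q s T : ℝ) : ℝ :=
  (N + 2) * (N + 4) * (T * zeS N s) * ((1 + lS N s) - 2 * rS N s T * (q - lS N s)) -
    (T * ((N + 1) * q - nuS N s) - (N + 2) * rS N s T * lS N s) ^ 2

theorem eG_pos {N s : ℝ} (hN : 3 ≤ N) (hs : 0 < s) : 0 < eG N s := by
  unfold eG
  nlinarith [mul_nonneg (sub_nonneg.2 hN) hs.le, mul_nonneg (sub_nonneg.2 hN) (sub_nonneg.2 hN)]

theorem eZ_pos {N s : ℝ} (hN : 3 ≤ N) (hs : 0 < s) : 0 < eZ N s := by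
  unfold eZ
  nlinarith [mul_pos (show (0 : ℝ) < N by linarith) hs, mul_nonneg (sub_nonneg.2 hN) hs.le]

theorem den_factor (N s : ℝ) : (s - 1) * eDen N s =
    -4 * (N + 1) * ePsi N s ^ 2 + (N + 2) * s ^ 2 * (N + s) * eG N s * eNu N s -
      N * ePhi N s * eG N s ^ 2 := by
  simp only [eDen, eNu, ePsi, ePhi, eG]; ring

/-- The quartic in factored form. -/
theorem quartic_eq {N s : ℝ} (T r : ℝ) {n : ℝ} (hn : n = N + 2) (hN : 3 ≤ N) (hs : 0 < s)
    (hd : eDen N s ≠ 0) :
    flQuartic n (lS N s) T (1 + lS N s) (1 + lS N s) (zeS N s) (nuS N s) r =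
      ((1 + lS N s) / (s + 1) * r ^ 2 * (r - s) ^ 2 +
        T * ePhi N s / (N * (s + 1) ^ 2 * (N + s) ^ 2 * s ^ 2) * (r - s) ^ 2 +
        (s - 1) * (T - tS N s) * eDen N s /
          (N ^ 2 * s ^ 2 * (s + 1) ^ 2 * (N + s) ^ 2 * eG N s ^ 2) * r ^ 2) / (N + 2) := by
  have hG := (eG_pos hN hs).ne'
  have hN0 : N ≠ 0 := by linarith
  have h1 : (s : ℝ) + 1 ≠ 0 := by linarith
  have h2 : N + s ≠ 0 := by linarith
  have h3 : N + 2 ≠ 0 := by linarith
  have e : (s - 1) * (T - tS N s) * eDen N s =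
      T * ((s - 1) * eDen N s) - (s - 1) * (N + 2) * eT N s := by
    unfold tS; field_simp
  rw [e, den_factor]
  simp only [flQuartic, flG, flJ, flM, zeS, nuS, lS, hn]
  field_simp
  simp only [eT, eNu, ePsi, ePhi, eG]
  ring

theorem rS_tS {N s : ℝ} (hN : 3 ≤ N) (hs : 0 < s) (hd : eDen N s ≠ 0) :
    rS N s (tS N s) = eR N s / (2 * s * (N + 2) * eQ1 N s) := by
  have h3 : eD3 s ≠ 0 := by unfold eD3; positivity
  have hN0 : N ≠ 0 := by linarith
  have h2 : N + 2 ≠ 0 := by linarith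
  have h1 : (s : ℝ) + 1 ≠ 0 := by linarith
  simp only [rS, tS, eR, eQ1, eK]
  field_simp
  ring

theorem eQ1_pos {N s : ℝ} (hN : 3 ≤ N) (h1 : 19 / 20 ≤ s) (h2 : s ≤ 20 / 9) : 0 < eQ1 N s := by
  have : 0 < eD3 s := by unfold eD3; positivity
  have := eDen_pos hN h1 h2
  have : 0 < s := by linarith
  unfold eQ1 eK; positivity

/-- (I) at the corner. -/
theorem F1_pos {N s : ℝ} (hN : 3 ≤ N) (h1 : 19 / 20 ≤ s) (h2 : s ≤ 20 / 9)
    (hr : s ≤ 2 ∨ 11 / 3 ≤ N) :
    0 < F1 N (s * (N + 4) / N) s (tS N s) := by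
  have hs : 0 < s := by linarith
  have hd := (eDen_pos hN h1 h2).ne'
  have hG := (eG_pos hN hs).ne'
  have hq := eQ1_pos hN h1 h2
  have hN0 : 0 < N := by linarith
  have h3 : eD3 s ≠ 0 := by unfold eD3; positivity
  have e : F1 N (s * (N + 4) / N) s (tS N s) = ePI N s / (N * (s + 1) * eQ1 N s) ^ 2 := by
    rw [F1, rS_tS hN hs hd]
    simp only [tS, nuS, lS, ePI, eB1, eC, eT, eQ1, eK]
    field_simp
    ring
  rw [e]
  exact div_pos (ePI_pos hN h1 h2 hr) (by positivity)

/-- The slope of (I) in `p`. -/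
theorem F1_slope {N s : ℝ} (hN : 3 ≤ N) (h1 : 19 / 20 ≤ s) (h2 : s ≤ 1) :
    (N + 2) * (N + 4) * (1 + lS N s) * rS N s (tS N s) ≤
      (N + 1) * ((N + 1) * 1 - (1 + lS N s) + (N + 2) * rS N s (tS N s) * lS N s) := by
  have hs : 0 < s := by linarith
  have h2' : s ≤ 20 / 9 := by linarith
  have hd := (eDen_pos hN h1 h2').ne'
  have hq := eQ1_pos hN h1 h2'
  have hN0 : 0 < N := by linarith
  rw [← sub_nonneg, rS_tS hN hs hd]
  have e : (N + 1) * ((N + 1) * 1 - (1 + lS N s) +
      (N + 2) * (eR N s / (2 * s * (N + 2) * eQ1 N s)) * lS N s) -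
      (N + 2) * (N + 4) * (1 + lS N s) * (eR N s / (2 * s * (N + 2) * eQ1 N s)) =
      eM N s / (2 * s * (N * (s + 1)) * eQ1 N s) := by
    simp only [lS, eM, eC1]
    field_simp
    ring
  rw [e]
  exact div_nonneg (eM_pos hN h1 h2).le (by positivity)

theorem eQd_pos {N s : ℝ} (hN : 3 ≤ N) (h1 : 19 / 20 ≤ s) : 0 < eQd N s := by
  unfold eQd
  have : 0 ≤ (8 * N + 1) * (N + 4) * (s - 19 / 20) := by
    have : 0 ≤ s - 19 / 20 := by linarith
    positivity
  nlinarith [mul_nonneg (sub_nonneg.2 hN) (show (0 : ℝ) ≤ N by linarith)]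

/-- (II) at `q = qn/qd`. -/
theorem F2_eq {N s : ℝ} (hN : 3 ≤ N) (h1 : 19 / 20 ≤ s) (h2 : s ≤ 20 / 9) (qn : ℝ) {qd : ℝ}
    (hqd : qd ≠ 0) :
    F2 N (qn / qd) s (tS N s) = ePII N s qn qd / (qd * (N * (s + 1)) * eQ1 N s) ^ 2 := by
  have hs : 0 < s := by linarith
  have hd := (eDen_pos hN h1 h2).ne'
  have hG := (eG_pos hN hs).ne'
  have hq := (eQ1_pos hN h1 h2).ne'
  have hN0 : 0 < N := by linarith
  have h3 : eD3 s ≠ 0 := by unfold eD3; positivity
  rw [F2, rS_tS hN hs hd]
  simp only [tS, nuS, zeS, lS, ePII, eA2, eB2, eZ, eT, eQ1, eK]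
  field_simp
  ring

theorem F2_pos {N s q : ℝ} (hN : 3 ≤ N) (h1 : 19 / 20 ≤ s) (h2 : s ≤ 20 / 9) (hq : 0 ≤ q)
    (hq2 : q ≤ eQn N s / eQd N s) : 0 < F2 N q s (tS N s) := by
  have hqd := eQd_pos hN h1
  have hq1 := eQ1_pos hN h1 h2
  have hN0 : 0 < N := by linarith
  have hs : 0 < s := by linarith
  have a : 0 < F2 N (0 / 1) s (tS N s) := by
    rw [F2_eq hN h1 h2 0 one_ne_zero]
    exact div_pos (ePIIz_pos hN h1 h2) (by positivity)
  have b : 0 < F2 N (eQn N s / eQd N s) s (tS N s) := by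
    rw [F2_eq hN h1 h2 _ hqd.ne']
    exact div_pos (ePIIc_pos hN h1 h2) (by positivity)
  rw [zero_div] at a
  set c := eQn N s / eQd N s
  set T := tS N s
  have hc : 0 < c := by
    have : 0 < eQn N s := by unfold eQn; positivity
    positivity
  have key : c * F2 N q s T = (c - q) * F2 N 0 s T + q * F2 N c s T +
      (T * (N + 1)) ^ 2 * q * (c - q) * c := by
    simp only [F2]; ring
  have k3 : 0 ≤ (T * (N + 1)) ^ 2 * q * (c - q) * c := by
    have : 0 ≤ c - q := by linarith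
    positivity
  refine pos_of_mul_pos_right (a := c) ?_ hc.le
  rw [key]
  rcases eq_or_lt_of_le hq with h | h
  · subst h; have := mul_pos hc a; linarith
  · have : 0 ≤ (c - q) * F2 N 0 s T := mul_nonneg (by linarith) a.le
    linarith [mul_pos h b]

/-- Parameters from strict slack at the exact `t`. -/
theorem hasParamsR_of_slack {n : ℝ} {N p q s : ℝ} (hn : n = N + 2) (hN : 3 ≤ N)
    (h1 : 19 / 20 ≤ s) (h2 : s ≤ 20 / 9) (hF1 : 0 < F1 N p s (tS N s))
    (hF2 : 0 < F2 N q s (tS N s)) : HasParamsR n p q := by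
  have hs : 0 < s := by linarith
  have hd := eDen_pos hN h1 h2
  have hG := eG_pos hN hs
  have hPhi := ePhi_pos hN h1 h2
  have hN0 : 0 < N := by linarith
  have hn3 : 3 ≤ n := by linarith
  have hT : 0 < tS N s := by
    have : 0 < eT N s := by unfold eT; positivity
    unfold tS; positivity
  have hz : 0 < zeS N s := by
    have := eZ_pos hN hs
    have e : zeS N s = eZ N s / (N * (s + 1) * (N + s)) := by
      simp only [zeS, lS, eZ]; field_simp
    rw [e]; positivity
  set b : ℝ := if s = 1 then 1 else 0 with hb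
  set sd : ℝ → ℝ := fun δ => s + b * δ with hsd
  set Td : ℝ → ℝ := fun δ => tS N (sd δ) + δ * (sd δ - 1) with hTd
  have hsd0 : sd 0 = s := by simp [hsd]
  have hTd0 : Td 0 = tS N s := by simp [hTd, hsd0]
  have hcs : ContinuousAt sd 0 := by simp only [hsd]; fun_prop
  have hev : ∀ {g : ℝ → ℝ}, ContinuousAt g 0 → 0 < g 0 → ∀ᶠ δ in 𝓝[>] (0 : ℝ), 0 < g δ :=
    fun hg h => (hg.eventually_const_lt h).filter_mono nhdsWithin_le_nhds
  have hct : ContinuousAt Td 0 := by
    have hc : ContinuousAt (tS N) s := by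
      unfold tS
      refine ContinuousAt.div ?_ ?_ hd.ne'
      · unfold eT eG; fun_prop
      · unfold eDen; fun_prop
    refine ContinuousAt.add ?_ (by fun_prop)
    exact ContinuousAt.comp (g := tS N) (by rwa [hsd0]) hcs
  have hcn : ContinuousAt (fun δ => nuS N (sd δ)) 0 := by
    refine ContinuousAt.comp (g := nuS N) ?_ hcs
    rw [hsd0]
    unfold nuS
    refine ContinuousAt.div ?_ ?_ (by positivity)
    · unfold eNu ePsi ePhi eG; fun_prop
    · unfold eG; fun_prop
  have hcl : ContinuousAt (fun δ => lS N (sd δ)) 0 := by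
    refine ContinuousAt.comp (g := lS N) ?_ hcs
    rw [hsd0]
    exact ContinuousAt.div (by fun_prop) (by fun_prop) (by positivity)
  have hcz : ContinuousAt (fun δ => zeS N (sd δ)) 0 := by
    refine ContinuousAt.comp (g := zeS N) ?_ hcs
    rw [hsd0]
    unfold zeS lS
    refine ContinuousAt.sub (ContinuousAt.add (by fun_prop) ?_) ?_
    · exact ContinuousAt.div (by fun_prop) (by fun_prop) (by positivity)
    · exact ContinuousAt.div (by fun_prop) (by fun_prop) (by positivity)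
  have hcr : ContinuousAt (fun δ => rS N (sd δ) (Td δ)) 0 := by
    unfold rS
    refine ContinuousAt.add (ContinuousAt.sub ?_ ?_) ?_
    · refine ContinuousAt.div_const (ContinuousAt.sub hcs (ContinuousAt.div hct hcs ?_)) _
      rw [hsd0]; exact hs.ne'
    · refine ContinuousAt.div (by fun_prop) (by unfold eD3; fun_prop) ?_
      rw [hsd0]; unfold eD3; positivity
    · exact ContinuousAt.div_const (by fun_prop) _
  have c1 : ContinuousAt (fun δ => F1 N p (sd δ) (Td δ)) 0 := by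
    unfold F1; fun_prop
  have c2 : ContinuousAt (fun δ => F2 N q (sd δ) (Td δ)) 0 := by
    unfold F2; fun_prop
  obtain ⟨δ, d1, d2, d3, d4, d5, d6, d7, d8, hδ⟩ := ((hev c1 (by rw [hsd0, hTd0]; exact hF1)).and
    ((hev c2 (by rw [hsd0, hTd0]; exact hF2)).and ((hev hct (by rw [hTd0]; exact hT)).and
    ((hev hcz (by simp only [hsd0]; exact hz)).and ((hev hcs (by rw [hsd0]; exact hs)).and
    ((hev (g := fun δ => eDen N (sd δ)) (by simp only [hsd, eDen]; fun_prop)
      (by simp only [hsd0]; exact hd)).and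
    ((hev (g := fun δ => ePhi N (sd δ)) (by simp only [hsd, ePhi]; fun_prop)
      (by simp only [hsd0]; exact hPhi)).and
    ((hev (g := fun δ => 3 - sd δ) (by fun_prop) (by rw [hsd0]; linarith)).and
      self_mem_nhdsWithin)))))))).exists
  change (0 : ℝ) < δ at hδ
  have hne : sd δ - 1 ≠ 0 := by
    simp only [hsd, hb]
    split_ifs with h
    · rw [h]; simp [hδ.ne']
    · simpa [sub_ne_zero] using h
  set σ := sd δ
  set T := Td δ with hTdef
  have hGs := eG_pos hN d5
  have hl : 0 < lS N σ := by unfold lS; positivity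
  have hl1 : lS N σ < 1 := by
    unfold lS; rw [div_lt_one (by positivity)]
    nlinarith [mul_le_mul_of_nonneg_right hN d5.le]
  have key : 0 < (σ - 1) * (T - tS N σ) := by
    rw [hTdef]; simp only [hTd]
    rw [show (σ - 1) * (tS N σ + δ * (σ - 1) - tS N σ) = δ * (σ - 1) ^ 2 by ring]
    positivity
  refine hasParamsR_freeL hn3 (l := lS N σ) (t := T) (ξ := 1 + lS N σ) (η := 1 + lS N σ)
    (ζ := zeS N σ) (ν := nuS N σ) (ρ := rS N σ T) (by linarith) hl1 ?_ d3 (by linarith) d4 ?_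
    (fun r => ?_) ?_ ?_
  · rw [hn, show N + 2 - 2 = N by ring]
    unfold lS; rw [div_mul_eq_mul_div, div_le_iff₀ (by positivity)]
    nlinarith [mul_pos d5 hN0]
  · have e : flG n (lS N σ) (1 + lS N σ) = (1 + lS N σ) / (σ + 1) / (N + 2) := by
      simp only [flG, lS, hn]; field_simp; ring
    rw [e]; positivity
  · rw [quartic_eq T r hn hN d5 d6.ne']
    refine div_pos ?_ (by linarith)
    set a := (1 + lS N σ) / (σ + 1)
    set b' := T * ePhi N σ / (N * (σ + 1) ^ 2 * (N + σ) ^ 2 * σ ^ 2)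
    set c := (σ - 1) * (T - tS N σ) * eDen N σ /
      (N ^ 2 * σ ^ 2 * (σ + 1) ^ 2 * (N + σ) ^ 2 * eG N σ ^ 2)
    have ha : 0 < a := by positivity
    have hb' : 0 < b' := by positivity
    have hc : 0 < c := by positivity
    have a0 : 0 ≤ a * r ^ 2 * (r - σ) ^ 2 := by positivity
    have c0 : 0 ≤ c * r ^ 2 := by positivity
    rcases eq_or_ne r σ with h | h
    · subst h
      have : 0 < c * σ ^ 2 := by positivity
      have : 0 ≤ b' * (σ - σ) ^ 2 := by positivity
      linarith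
    · have : 0 < b' * (r - σ) ^ 2 := mul_pos hb' (by have := sub_ne_zero.2 h; positivity)
      linarith
  · rw [← sub_pos]; refine lt_of_lt_of_eq d1 ?_; simp only [F1, hn]; ring
  · rw [← sub_pos]; refine lt_of_lt_of_eq d2 ?_; simp only [F2, hn]; ring

end Near

open Vale.Agent.P100.Near Near

/-- **Near the diagonal.** Parameters for `q ≤ p`, `9(n-2)p ≤ 20(n+2)`, `α ≤ n - 3` and
`α + β ≥ n - 2 + 1/8`, in a real dimension. -/
theorem hasParamsN_eighth_near {n : ℝ} (hn : 5 ≤ n) {p q : ℝ} (hq : 0 < q) (hqp : q ≤ p)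
    (hpq : 1 < p * q) (hp : 9 * (n - 2) * p ≤ 20 * (n + 2))
    (ha : 2 * (p + 1) / (p * q - 1) ≤ n - 3)
    (hab : n - 2 + 1 / 8 ≤ 2 * (p + 1) / (p * q - 1) + 2 * (q + 1) / (p * q - 1)) :
    HasParamsN n p q := by
  refine hasParamsN_of_hasParamsR hpq (by linarith) ?_
  obtain ⟨N, hnN⟩ : ∃ N, N = n - 2 := ⟨_, rfl⟩
  have hn2 : n = N + 2 := by linarith
  have hN : 3 ≤ N := by linarith
  have hN0 : 0 < N := by linarith
  rw [div_le_iff₀ (by linarith), hn2] at ha
  rw [← hnN, ← add_div, le_div_iff₀ (by linarith)] at hab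
  rw [← hnN, hn2] at hp
  have hp1 : 1 < p := by
    rcases le_or_gt p 1 with h | h
    · have := mul_le_mul h (hqp.trans h) hq.le (by norm_num : (0 : ℝ) ≤ 1)
      linarith
    · exact h
  have hqK : q * ((8 * N + 1) * p - 16) ≤ 16 * p + 8 * N + 33 := by linarith
  have hpd : 0 < (8 * N + 1) * p - 16 := by
    have := mul_le_mul_of_nonneg_left hp1.le (show (0 : ℝ) ≤ 8 * N + 1 by linarith)
    linarith
  have hup : 9 * p ≤ 8 * (N + 1) := by
    by_contra hc; push Not at hc
    have h1 : 0 ≤ N - 1 := by linarith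
    have e1 := mul_le_mul_of_nonneg_left hab (by positivity : (0 : ℝ) ≤ 8 * (N - 1) * p)
    have e2 := mul_le_mul_of_nonneg_left ha hpd.le
    have e3 := mul_pos (sub_pos.2 hc) (by linarith : (0 : ℝ) < p + 1)
    linarith
  have corner : ∀ s : ℝ, 19 / 20 ≤ s →
      eQn N s / eQd N s = (16 * (s * (N + 4) / N) + 8 * N + 33) /
        ((8 * N + 1) * (s * (N + 4) / N) - 16) := by
    intro s h1
    have e1 : eQn N s = N * (16 * (s * (N + 4) / N) + 8 * N + 33) := by
      simp only [eQn]; field_simp; ring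
    have e2 : eQd N s = N * ((8 * N + 1) * (s * (N + 4) / N) - 16) := by
      simp only [eQd]; field_simp
    rw [e1, e2, mul_div_mul_left _ _ hN0.ne']
  obtain ⟨pd, hpdd⟩ : ∃ pd, pd = (8 * N + 33) / (8 * N + 1) := ⟨_, rfl⟩
  have hsd : 19 / 20 ≤ pd * N / (N + 4) := by
    rw [hpdd, div_mul_eq_mul_div, div_div, div_le_div_iff₀ (by norm_num) (by positivity)]
    nlinarith [mul_nonneg (sub_nonneg.2 hN) hN0.le]
  have hsd1 : pd * N / (N + 4) ≤ 1 := by
    rw [hpdd, div_mul_eq_mul_div, div_div, div_le_one (by positivity)]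
    linarith
  rcases le_or_gt pd p with hc | hc
  · -- `s = p N / (N + 4)`
    set s := p * N / (N + 4) with hs
    have h2 : s ≤ 20 / 9 := by
      rw [hs, div_le_div_iff₀ (by linarith) (by norm_num)]; linarith
    have hr : s ≤ 2 ∨ 11 / 3 ≤ N := by
      refine or_iff_not_imp_left.2 fun h => ?_
      push Not at h
      rw [hs, lt_div_iff₀ (by linarith)] at h
      by_contra hc; push Not at hc
      have := mul_le_mul_of_nonneg_left hup hN0.le
      have := mul_pos (sub_pos.2 hc) (by linarith : (0 : ℝ) < 8 * N + 58 / 3)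
      linarith
    have h1 : 19 / 20 ≤ s := hsd.trans (by rw [hs]; gcongr)
    have hps : s * (N + 4) / N = p := by rw [hs]; field_simp
    refine hasParamsR_of_slack hn2 hN h1 h2 ?_ (F2_pos hN h1 h2 hq.le ?_)
    · rw [← hps]; exact F1_pos hN h1 h2 hr
    · rw [corner s h1, hps, le_div_iff₀ hpd]; linarith
  · -- `s = pd N / (N + 4)`
    set s := pd * N / (N + 4) with hs
    have h2 : s ≤ 20 / 9 := by linarith
    have hps : s * (N + 4) / N = pd := by rw [hs]; field_simp
    refine hasParamsR_of_slack hn2 hN hsd h2 ?_ (F2_pos hN hsd h2 hq.le ?_)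
    · have a := F1_pos hN hsd h2 (Or.inl (by linarith))
      rw [hps] at a
      have b := F1_slope hN hsd hsd1
      set T := tS N s
      have key : F1 N p s T = F1 N pd s T + (pd - p) *
          (2 * ((N + 1) * ((N + 1) * 1 - (1 + lS N s) + (N + 2) * rS N s T * lS N s) -
            (N + 2) * (N + 4) * (1 + lS N s) * rS N s T) +
            (N + 1) ^ 2 * (pd + p - 2)) := by
        simp only [F1]; ring
      rw [key]
      have : 0 ≤ (pd - p) * (2 * ((N + 1) * ((N + 1) * 1 - (1 + lS N s) +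
          (N + 2) * rS N s T * lS N s) - (N + 2) * (N + 4) * (1 + lS N s) * rS N s T) +
            (N + 1) ^ 2 * (pd + p - 2)) := by
        refine mul_nonneg (by linarith) ?_
        have : 0 ≤ (N + 1) ^ 2 * (pd + p - 2) :=
          mul_nonneg (by positivity) (by linarith)
        linarith
      linarith
    · rw [corner s hsd, hps]
      refine (hqp.trans hc.le).trans_eq ?_
      have h81 : (8 * N + 1) ≠ 0 := by linarith
      have e : (8 * N + 1) * pd - 16 = 8 * N + 17 := by rw [hpdd]; field_simp; ring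
      rw [e, hpdd, div_eq_div_iff h81 (by linarith)]
      field_simp
      ring

end Vale.Agent.P100.RealDim
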