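import Mathlib
import Vale.Agent.P100.Params
import Vale.Agent.P100.RealDim.Range

/-!
# The one-parameter region in a real dimension, without cone
-/

open Filter Topology Set

namespace Vale.Agent.P100.RealDim

section coefficients

variable {N p q s t δ : ℝ}

theorem cAA_param (hn : 4 ≤ N) :
    cAA N (1 - 1 / (N - 2)) ((1 - 1 / (N - 2)) / 2) =
      (N - 1) / (2 * N * (N - 2)) := by
  have h4 : 4 ≤ N := hn
  have : N ≠ 0 := by linarith
  have : N - 2 ≠ 0 := by linarith
  unfold cAA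
  field_simp
  ring

theorem quartic_param (hn : 4 ≤ N) (hs : s ≠ 0) (_ht : t ≠ 0) (r : ℝ) :
    let L := 1 - 1 / (N - 2)
    let y₁ := -(2 * s / (N - 2) + L) / 2
    let y₂ := -t * (2 / (s * (N - 2)) + L) / 2
    cAA N L (L / 2) * r ^ 4 + cAC N L (L / 2) y₁ * r ^ 3 +
      (cAB L t y₁ y₂ + cCC N L t y₁ y₂) * r ^ 2 + cBC N L t (t * L / 2) y₂ * r +
      cBB N L t (t * L / 2) =
    (N - 1) / (2 * N * (N - 2)) * ((r - s) ^ 2 * (r ^ 2 + t / s ^ 2) +
      N / ((N - 1) * (N - 2)) * (s - 1) *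
        (t / s ^ 2 * ((N - 3) * s + (N - 1)) -
          ((N - 1) * s + (N - 3))) * r ^ 2) := by
  have h4 : 4 ≤ N := hn
  have : N ≠ 0 := by linarith
  have : N - 1 ≠ 0 := by linarith
  have : N - 2 ≠ 0 := by linarith
  simp only [cAA, cAC, cAB, cCC, cBC, cBB]
  field_simp
  ring

theorem cPA_param (hn : 4 ≤ N) :
    cPA N (1 - 1 / (N - 2)) ((1 - 1 / (N - 2)) / 2) (1 / N - δ) =
      (N - 1) * (N + 2) / (2 * N * (N - 2)) + δ * (N - 1) / (N - 2) := by
  have : N ≠ 0 := by linarith
  have : N - 2 ≠ 0 := by linarith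
  unfold cPA
  field_simp
  ring

theorem cPB_param (hn : 4 ≤ N) (hs : s ≠ 0) :
    cPB p (1 - 1 / (N - 2))
      (-t * (2 / (s * (N - 2)) + (1 - 1 / (N - 2))) / 2) 0 =
      t * (2 / s + (N - 3)) / (2 * (N - 2)) := by
  have h4 : 4 ≤ N := hn
  have : N - 2 ≠ 0 := by linarith
  unfold cPB
  field_simp
  ring

theorem cPC_param (hn : 4 ≤ N) {R : ℝ}
    (hδ : δ * (p + (1 - 1 / (N - 2))) =
      (R - (p * ((N - 1) * (N - 2)) - (2 * s + (N - 3)))) / (N * (N - 2))) :
    cPC N p (1 - 1 / (N - 2))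
      (-(2 * s / (N - 2) + (1 - 1 / (N - 2))) / 2) (1 / N - δ) 0 =
      -R / (N * (N - 2)) := by
  have : N ≠ 0 := by linarith
  have : N - 2 ≠ 0 := by linarith
  unfold cPC
  rw [sub_mul (1 / N), hδ]
  field_simp
  ring

theorem cQA_param (hn : 4 ≤ N) :
    cQA q (1 - 1 / (N - 2))
      (-(2 * s / (N - 2) + (1 - 1 / (N - 2))) / 2) 0 =
      (2 * s + (N - 3)) / (2 * (N - 2)) := by
  have h4 : 4 ≤ N := hn
  have : N - 2 ≠ 0 := by linarith
  unfold cQA
  field_simp
  ring

theorem cQB_param (hn : 4 ≤ N) :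
    cQB N (1 - 1 / (N - 2)) t (t * (1 - 1 / (N - 2)) / 2) (t / N - δ) =
      t * ((N - 1) * (N + 2)) / (2 * N * (N - 2)) +
        δ * (N - 1) / (N - 2) := by
  have h4 : 4 ≤ N := hn
  have : N ≠ 0 := by linarith
  have : N - 2 ≠ 0 := by linarith
  unfold cQB
  field_simp
  ring

theorem cQC_param (hn : 4 ≤ N) (hs : s ≠ 0) {R : ℝ}
    (hδ : δ * (q + (1 - 1 / (N - 2))) =
      (R + (2 / s + (N - 3)) - q * ((N - 1) * (N - 2))) * t /
        (N * (N - 2))) :
    cQC N q (1 - 1 / (N - 2)) t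
      (-t * (2 / (s * (N - 2)) + (1 - 1 / (N - 2))) / 2) (t / N - δ) 0 =
      -(t * R) / (N * (N - 2)) := by
  have h4 : 4 ≤ N := hn
  have : N ≠ 0 := by linarith
  have : N - 2 ≠ 0 := by linarith
  unfold cQC
  rw [sub_mul (t / N), hδ]
  field_simp
  ring

end coefficients

/-- The parameters at `s` cover `p ≤ Plo N s`, `q < Qlo N s`. -/
theorem hasParamsR_of_curve {N : ℝ} (hn : 4 ≤ N) {p q s : ℝ} (hp : 0 < p) (hq : 0 < q) (hs : 1 < s)
    (hp1 : p ≤ Plo N s)
    (hq1 : q < Qlo N s) : HasParamsR N p q := by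
  have h4 : 4 ≤ N := hn
  have h3 : 3 ≤ N := by linarith
  have hM : 0 < (N - 1) * (N - 2) := mul_pos (by linarith) (by linarith)
  have hs0 : 0 < s := by linarith
  have hB : 0 < (N - 3) * s + (N - 1) := by
    linarith [mul_nonneg (show (0:ℝ) ≤ N - 3 by linarith) hs0.le]
  have hAl : 0 < (N - 1) * s + (N - 3) := by
    linarith [mul_pos (show (0:ℝ) < N - 1 by linarith) hs0]
  have hr := rootLo_pos h3
  have hr2 := rootLo_sq_lt h3
  -- the parameter t
  set T := s ^ 2 * ((N - 1) * s + (N - 3)) / ((N - 3) * s + (N - 1)) with hT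
  have hT0 : 0 < T := by rw [hT]; positivity
  set t := T * (N * (N + 2)) / rootLo N ^ 2 with ht
  have hTt : T < t := by
    rw [ht, lt_div_iff₀ (pow_pos hr 2)]
    exact mul_lt_mul_of_pos_left hr2 hT0
  have ht0 : 0 < t := hT0.trans hTt
  set U := 2 * s + (N - 3) with hU
  set V := 2 / s + (N - 3) with hV
  have hU0 : 0 < U := by linarith
  have hV0 : 0 < V := by linarith [div_pos two_pos hs0]
  set RP := (N - 1) * s * rootLo N * facP N s with hRP
  set RQ := (N - 1) / s * rootLo N * facQ N s with hRQ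
  have hIcore : RP ^ 2 < N * (N - 1) * (N + 2) * t * V := by
    have h := facP_sq_le h3 hs.le
    calc RP ^ 2 = (N - 1) * s * rootLo N ^ 2 / ((N - 3) * s + (N - 1)) *
          (facP N s ^ 2 * ((N - 1) * s * ((N - 3) * s + (N - 1)))) := by
            rw [div_mul_eq_mul_div, eq_div_iff hB.ne', hRP]; ring
      _ ≤ (N - 1) * s * rootLo N ^ 2 / ((N - 3) * s + (N - 1)) *
          ((N - 1) * s * ((N - 3) * s + (N - 1)) - 2 * (N - 3) * (s - 1)) :=
            mul_le_mul_of_nonneg_left h (div_nonneg (mul_nonneg (mul_nonneg (by linarith) hs0.le)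
              (sq_nonneg _)) hB.le)
      _ = rootLo N ^ 2 * (N - 1) * T * V := by
            rw [hT, hV]; field_simp; ring
      _ < N * (N + 2) * (N - 1) * t * V := by
            refine mul_lt_mul_of_pos_right (mul_lt_mul (mul_lt_mul_of_pos_right hr2
              (by linarith)) hTt.le hT0 ?_) hV0
            exact mul_nonneg (by positivity) (by linarith)
      _ = N * (N - 1) * (N + 2) * t * V := by ring
  have hIIcore : t * RQ ^ 2 ≤ N * (N - 1) * (N + 2) * U := by
    have h := facQ_sq_le h3 hs.le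
    calc t * RQ ^ 2 = N * (N + 2) * (N - 1) / ((N - 3) * s + (N - 1)) *
          (facQ N s ^ 2 * ((N - 1) * ((N - 1) * s + (N - 3)))) := by
            rw [hRQ, ht, hT]; field_simp
      _ ≤ N * (N + 2) * (N - 1) / ((N - 3) * s + (N - 1)) *
          ((N - 1) * ((N - 1) * s + (N - 3)) + 2 * (N - 3) * s * (s - 1)) :=
            mul_le_mul_of_nonneg_left h (div_nonneg (mul_nonneg (by positivity) (by linarith))
              hB.le)
      _ = N * (N - 1) * (N + 2) * U := by
            rw [hU]; field_simp; ring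
  -- the exponents
  have hPlo : Plo N s * ((N - 1) * (N - 2)) = U + RP := div_mul_cancel₀ _ hM.ne'
  have hQlo : Qlo N s * ((N - 1) * (N - 2)) = V + RQ := div_mul_cancel₀ _ hM.ne'
  set dq := RQ + V - q * ((N - 1) * (N - 2)) with hdq
  have hdq0 : 0 < dq := by linarith [mul_lt_mul_of_pos_right hq1 hM]
  have hp1' := mul_le_mul_of_nonneg_right hp1 hM.le
  set S1 := √(N * (N - 1) * (N + 2) * t * V) with hS1
  have hS1RP : RP < S1 := by
    rw [hS1]
    rcases le_or_gt 0 RP with h | h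
    · exact (Real.lt_sqrt h).2 hIcore
    · exact h.trans_le (Real.sqrt_nonneg _)
  have hS1sq : S1 ^ 2 = N * (N - 1) * (N + 2) * t * V :=
    Real.sq_sqrt ((sq_nonneg RP).trans hIcore.le)
  set dp := S1 - (p * ((N - 1) * (N - 2)) - U) with hdp
  have hdp0 : 0 < dp := by linarith
  set L := 1 - 1 / (N - 2) with hL
  have hqL : 0 < q + L := by
    have : 1 / (N - 2) ≤ 1 := (div_le_one (by linarith)).2 (by linarith)
    linarith
  set δ := dq * t / (N * (N - 2) * (q + L)) with hδ
  have hN2 : 0 < N - 2 := by linarith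
  have hδ0 : 0 < δ := by
    rw [hδ]; exact div_pos (mul_pos hdq0 ht0) (mul_pos (mul_pos (by linarith) hN2) hqL)
  have hpL : 0 < p + L := by
    have : 1 / (N - 2) ≤ 1 := (div_le_one (by linarith)).2 (by linarith)
    linarith
  set δp := dp / (N * (N - 2) * (p + L)) with hδp
  have hδp0 : 0 < δp := by
    rw [hδp]; exact div_pos hdp0 (mul_pos (mul_pos (by linarith) hN2) hpL)
  have hpe : δp * (p + L) = (S1 - (p * ((N - 1) * (N - 2)) - U)) / (N * (N - 2)) := by
    rw [hδp, ← hdp, div_mul_eq_mul_div, mul_div_mul_right _ _ hpL.ne']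
  refine hasParamsR_of_conditions (L := L) (t := t) (x₁ := L / 2)
    (y₁ := -(2 * s / (N - 2) + L) / 2) (x₂ := t * L / 2)
    (y₂ := -t * (2 / (s * (N - 2)) + L) / 2) (π₁ := 1 / N - δp) (ρ := 0) (χ := 0) (ψ := t / N - δ)
    h3 ?_ ?_ ?_ ht0 ?_ ?_ ?_ ?_ ?_ ?_ ?_ ?_ (by linarith) (by linarith) (by norm_num)
  · have : 1 / (N - 2) < 1 := (div_lt_one hN2).2 (by linarith)
    linarith
  · have : 0 < 1 / (N - 2) := by positivity
    linarith
  · rw [hL, sub_mul, one_div_mul_cancel hN2.ne']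
    linarith
  · rw [hL, cAA_param hn]
    exact div_pos (by linarith) (by positivity)
  · intro r
    rw [hL, quartic_param hn hs0.ne' ht0.ne']
    refine mul_pos (div_pos (by linarith) (by positivity)) ?_
    have hex : 0 < t / s ^ 2 * ((N - 3) * s + (N - 1)) - ((N - 1) * s + (N - 3)) := by
      rw [sub_pos, div_mul_eq_mul_div, lt_div_iff₀ (pow_pos hs0 2)]
      calc ((N - 1) * s + (N - 3)) * s ^ 2 = T * ((N - 3) * s + (N - 1)) := by
            rw [hT, div_mul_cancel₀ _ hB.ne']; ring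
        _ < t * ((N - 3) * s + (N - 1)) := mul_lt_mul_of_pos_right hTt hB
    have hc : 0 < N / ((N - 1) * (N - 2)) * (s - 1) *
        (t / s ^ 2 * ((N - 3) * s + (N - 1)) - ((N - 1) * s + (N - 3))) :=
      mul_pos (mul_pos (div_pos (by linarith) hM) (by linarith)) hex
    rcases eq_or_ne r 0 with h | h
    · subst h; simp; positivity
    · exact add_pos_of_nonneg_of_pos (by positivity) (mul_pos hc (by positivity))
  · rw [hL, cPA_param hn]
    have : 0 ≤ N - 1 := by linarith
    positivity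
  · rw [hL, cPB_param hn hs0.ne', ← hV]
    positivity
  · rw [hL, cPA_param hn, cPB_param hn hs0.ne', cPC_param hn (R := S1) hpe, ← hV, div_pow,
      neg_sq, hS1sq]
    calc N * (N - 1) * (N + 2) * t * V / (N * (N - 2)) ^ 2
        = 4 * ((N - 1) * (N + 2) / (2 * N * (N - 2))) * (t * V / (2 * (N - 2))) := by
          field_simp; ring
      _ ≤ _ := by
          refine mul_le_mul_of_nonneg_right (mul_le_mul_of_nonneg_left ?_ (by norm_num))
            (by positivity)
          have : 0 ≤ N - 1 := by linarith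
          exact le_add_of_nonneg_right (by positivity)
  · rw [hL, cQA_param hn, ← hU]
    positivity
  · rw [hL, cQB_param hn]
    have : 0 ≤ N - 1 := by linarith
    positivity
  · have hqne : q + L ≠ 0 := hqL.ne'
    have hδe : δ * (q + L) = (RQ + V - q * ((N - 1) * (N - 2))) * t / (N * (N - 2)) := by
      rw [hδ, ← hdq, div_mul_eq_mul_div, mul_div_mul_right _ _ hqne]
    rw [hL, cQB_param hn, cQA_param hn, cQC_param hn hs0.ne' (R := RQ) hδe, ← hU,
      div_pow, neg_sq]
    calc (t * RQ) ^ 2 / (N * (N - 2)) ^ 2 = t * (t * RQ ^ 2) / (N * (N - 2)) ^ 2 := by ring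
      _ ≤ t * (N * (N - 1) * (N + 2) * U) / (N * (N - 2)) ^ 2 :=
          div_le_div_of_nonneg_right (mul_le_mul_of_nonneg_left hIIcore ht0.le) (sq_nonneg _)
      _ = 4 * (t * ((N - 1) * (N + 2)) / (2 * N * (N - 2))) * (U / (2 * (N - 2))) := by
          field_simp; ring
      _ ≤ _ := by
          refine mul_le_mul_of_nonneg_right (mul_le_mul_of_nonneg_left ?_ (by norm_num))
            (by positivity)
          have : 0 ≤ N - 1 := by linarith
          exact le_add_of_nonneg_right (by positivity)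

/-- Parameters for every pair `q ≤ p` at distance at least `p / (2 N (N + 8))` from the critical
hyperbola. -/
theorem hasParamsR_of_gap {N : ℝ} (hn : 4 ≤ N) {p q : ℝ} (hq : 0 < q) (hqp : q ≤ p)
    (hgap : (N - 2) / N + p / (2 * N * (N + 8)) ≤ 1 / (p + 1) + 1 / (q + 1)) :
    HasParamsR N p q := by
  have h4 : 4 ≤ N := hn
  have h3 : 3 ≤ N := by linarith
  have hM : 0 < (N - 1) * (N - 2) := mul_pos (by linarith) (by linarith)
  have hp : 0 < p := hq.trans_le hqp
  rcases le_or_gt p (Plo N 1) with hp1 | hp1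
  · -- near the diagonal
    have hq1 : q < Qlo N 1 := by
      rw [← Plo_one_eq_Qlo_one _ h3]
      refine lt_of_le_of_ne (hqp.trans hp1) fun h => ?_
      have hpe : p = Plo N 1 := le_antisymm hp1 (h ▸ hqp)
      have hk := curve_bound h3 (le_refl (1 : ℝ))
      rw [← Plo_one_eq_Qlo_one _ h3] at hk
      rw [hpe, h] at hgap
      linarith
    have hc : Tendsto (Qlo N) (𝓝[Ici 1] 1) (𝓝 (Qlo N 1)) :=
      continuousOn_Qlo h3 1 self_mem_Ici
    obtain ⟨η, hη, hball⟩ := Metric.mem_nhdsWithin_iff.1 (hc (Ioi_mem_nhds hq1))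
    set s := 1 + min (1 / 2) (η / 2) with hs
    have hmin : 0 < min (1 / 2) (η / 2) := lt_min (by norm_num) (by linarith)
    have hs1 : 1 < s := by linarith
    have hs2 : s ≤ 3 / 2 := by linarith [min_le_left (1 / 2 : ℝ) (η / 2)]
    have hqs : q < Qlo N s := hball ⟨by
      rw [Metric.mem_ball, Real.dist_eq, abs_of_pos (by linarith)]
      linarith [min_le_right (1 / 2 : ℝ) (η / 2)], hs1.le⟩
    exact hasParamsR_of_curve hn hp hq hs1 (hp1.trans (Plo_le_of_one_le h3 hs1.le)) hqs
  · -- on the curve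
    have hgrow : ∀ s : ℝ, 1 ≤ s → 2 * s / ((N - 1) * (N - 2)) ≤ Plo N s := by
      intro s hs
      unfold Plo
      rw [div_le_div_iff_of_pos_right hM]
      have : 0 ≤ (N - 1) * s * rootLo N * facP N s :=
        mul_nonneg (mul_nonneg (mul_nonneg (by linarith) (by linarith)) (rootLo_pos h3).le)
          (facP_pos h3 hs).le
      linarith
    set S := p * ((N - 1) * (N - 2)) + 1 with hS
    have hS1 : 1 ≤ S := by linarith [mul_nonneg hp.le hM.le]
    have hpS : p ≤ Plo N S := by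
      refine le_trans ?_ (hgrow S hS1)
      rw [le_div_iff₀ hM]
      linarith [mul_nonneg hp.le hM.le]
    obtain ⟨s, hs, hse⟩ := intermediate_value_Icc hS1 ((continuousOn_Plo h3).mono
      Icc_subset_Ici_self) ⟨hp1.le, hpS⟩
    have hs1 : 1 < s := lt_of_le_of_ne hs.1 fun h => by subst h; linarith
    refine hasParamsR_of_curve hn hp hq hs1 hse.ge ?_
    by_contra hcon
    push Not at hcon
    have hk := curve_bound h3 hs.1
    rw [hse] at hk
    have : 1 / (q + 1) ≤ 1 / (Qlo N s + 1) :=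
      one_div_le_one_div_of_le (by linarith [Qlo_pos h3 hs.1]) (by linarith)
    linarith

end Vale.Agent.P100.RealDim
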